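import Vale.Agent.P370.H374.Dir
import Vale.Agent.P370.H305.Blocks
import Vale.Agent.P370.H758.Bound
import Vale.Agent.P370.H32.HS

/-! Block `FieldStmt`: the mean field of the closed shells in closed form. -/

namespace Vale.Agent.P370.H374

open MeasureTheory Set Real Finset
open Vale.Agent.P363.H849 (R3 H1 ip ip_apply ip_nonneg integral_rad)
open Vale.Agent.P363.R.H10 (DD Nice DD_comm DD_eq_prod DD_mul_left DD_mul_right)
open Vale.Agent.P370.H624 (Shell Closed Filled sk sk_pos card_Closed)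
open Vale.Agent.P370.H758 (ring0_sq ring0_mem EB_Wsp EB EB_shell EB_orb EB_sum core kerS core_kernel coreF coreF_eq nrm0 nrm0_pos
  cw core_ringC core_nonneg core_le core_symm core_add_left core_smul_left shell_pot_le DD_sum_left
  DD_sum_right)
open Vale.Agent.P370.H305 (coreRep FieldStmt nrm)
open Vale.Agent.P370.H32 (KK KK_comm shell_kernel A0 A0_pos)
open Vale.Agent.P370.H227 (potS integral_KK_div phiC wS wM integral_wS wM_pos)
open Vale.Agent.P370.H115 (ringC)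
open scoped Nat ComplexConjugate

noncomputable section

variable {J : ℕ}

/-- the orbitals of one level -/
theorem level_kernel (S : Filled J (Closed J)) (hlv : ∀ a, S.lv a = a.1.1) (j : Fin J) (x y : R3) :
    ∑ i : Fin ((j.1 + 1) ^ 2), S.orb ⟨j, i⟩ x * S.orb ⟨j, i⟩ y = KK (j.1 + 1) x y := by
  refine shell_kernel (j := j.1) (ι := Fin ((j.1 + 1) ^ 2)) (by simp) (fun i => S.φ ⟨j, i⟩)
    (fun i => ?_) (fun i k => ?_) x y
  · have := S.mem ⟨j, i⟩
    rw [hlv] at this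
    exact this
  · rw [S.on]
    by_cases h : i = k
    · subst h; simp
    · have : (⟨j, i⟩ : Closed J) ≠ ⟨j, k⟩ := by
        intro h2
        exact h (by simpa using h2)
      rw [if_neg this, if_neg h]

/-- the one-particle density matrix of the closed shells -/
theorem kerS_eq (S : Filled J (Closed J)) (hlv : ∀ a, S.lv a = a.1.1) (x y : R3) :
    kerS S x y = ∑ j ∈ range J, KK (j + 1) x y := by
  unfold kerS
  rw [Fintype.sum_sigma, ← Fin.sum_univ_eq_sum_range (fun j => KK (j + 1) x y) J]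
  exact Finset.sum_congr rfl fun j _ => level_kernel S hlv j x y

theorem pot_level (S : Filled J (Closed J)) (hlv : ∀ a, S.lv a = a.1.1) (j : Fin J) {y : R3}
    (hy : y ≠ 0) : ∑ i : Fin ((j.1 + 1) ^ 2), H198.pot (fun x => S.orb ⟨j, i⟩ x * S.orb ⟨j, i⟩ x) y =
      potS (j.1 + 1) ‖y‖ := by
  rw [← integral_KK_div (Nat.succ_ne_zero _) hy]
  unfold H198.pot
  have hint : ∀ i : Fin ((j.1 + 1) ^ 2),
      Integrable (fun x => S.orb ⟨j, i⟩ x * S.orb ⟨j, i⟩ x / ‖x - y‖) := by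
    intro i
    have := (shell_pot_le (S.mem ⟨j, i⟩) y).1
    refine this.congr (ae_of_all _ fun x => ?_)
    change (S.φ ⟨j, i⟩).1.1 x * (S.φ ⟨j, i⟩).1.1 x / ‖y - x‖ =
      (S.φ ⟨j, i⟩).1.1 x * (S.φ ⟨j, i⟩).1.1 x / ‖x - y‖
    rw [norm_sub_rev]
  rw [← integral_finsetSum _ fun i _ => hint i]
  congr 1
  funext x
  rw [← Finset.sum_div, level_kernel S hlv, norm_sub_rev]

theorem pot_core (S : Filled J (Closed J)) (hlv : ∀ a, S.lv a = a.1.1) {y : R3} (hy : y ≠ 0) :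
    2 * ∑ a, H198.pot (fun x => S.orb a x * S.orb a x) y = phiC (J + 1) ‖y‖ := by
  unfold phiC
  rw [Fintype.sum_sigma, Nat.add_sub_cancel,
    ← Fin.sum_univ_eq_sum_range (fun j => potS (j + 1) ‖y‖) J]
  congr 1
  exact Finset.sum_congr rfl fun j _ => pot_level S hlv j hy

/-- the diagonal of the shell kernel is exponentially bounded -/
theorem EB_level (S : Filled J (Closed J)) (hlv : ∀ a, S.lv a = a.1.1) (j : Fin J) :
    EB (fun x => KK (j.1 + 1) x x) := by
  have h := EB_sum (Finset.univ : Finset (Fin ((j.1 + 1) ^ 2)))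
    (f := fun i x => S.orb ⟨j, i⟩ x * S.orb ⟨j, i⟩ x) fun i => (EB_orb S _).mul (EB_orb S _)
  have e : (fun x => ∑ i : Fin ((j.1 + 1) ^ 2), S.orb ⟨j, i⟩ x * S.orb ⟨j, i⟩ x) =
      fun x => KK (j.1 + 1) x x := by
    funext x; exact level_kernel S hlv j x x
  rwa [e] at h

theorem DD_pot {f : R3 → ℝ} {m : ℕ} (hm : m ≠ 0) :
    DD f (fun y => KK m y y) = ∫ x, f x * potS m ‖x‖ := by
  unfold DD
  have hae : ∀ᵐ x : R3, x ≠ 0 := by rw [ae_iff]; simp
  refine integral_congr_ae ?_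
  filter_upwards [hae] with x hx
  rw [← integral_KK_div hm hx, ← integral_const_mul]
  congr 1
  funext y
  ring

theorem DD_level {i j : ℕ} : DD (fun x => KK (i + 1) x x) (fun y => KK (j + 1) y y) =
    Dv (i + 1) (j + 1) := by
  rw [DD_pot (Nat.succ_ne_zero j), D_eq (Nat.succ_pos i) (Nat.succ_pos j)]

theorem direct_core (S : Filled J (Closed J)) (hlv : ∀ a, S.lv a = a.1.1) :
    ∑ k, ∑ l, DD (fun x => S.orb k x * S.orb k x) (fun x => S.orb l x * S.orb l x) =
      ∑ i ∈ range J, ∑ j ∈ range J, Dv (i + 1) (j + 1) := by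
  have hE : ∀ k, EB (fun x => S.orb k x * S.orb k x) := fun k => (EB_orb S k).mul (EB_orb S k)
  have h1 : ∀ k, ∑ l, DD (fun x => S.orb k x * S.orb k x) (fun x => S.orb l x * S.orb l x) =
      ∑ j : Fin J, DD (fun x => S.orb k x * S.orb k x) (fun y => KK (j.1 + 1) y y) := by
    intro k
    rw [Fintype.sum_sigma]
    refine Finset.sum_congr rfl fun j _ => ?_
    rw [← DD_sum_right _ (fun i => hE _) (hE k)]
    congr 1
    funext x
    exact level_kernel S hlv j x x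
  rw [Finset.sum_congr rfl fun k _ => h1 k, Finset.sum_comm]
  have h2 : ∀ j : Fin J, ∑ k, DD (fun x => S.orb k x * S.orb k x) (fun y => KK (j.1 + 1) y y) =
      ∑ i : Fin J, DD (fun x => KK (i.1 + 1) x x) (fun y => KK (j.1 + 1) y y) := by
    intro j
    rw [Fintype.sum_sigma]
    refine Finset.sum_congr rfl fun i _ => ?_
    rw [← DD_sum_left _ (fun i => hE _) (EB_level S hlv j)]
    congr 1
    funext x
    exact level_kernel S hlv i x x
  rw [Finset.sum_congr rfl fun j _ => h2 j, Finset.sum_comm,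
    ← Fin.sum_univ_eq_sum_range (fun i => ∑ j ∈ range J, Dv (i + 1) (j + 1)) J]
  refine Finset.sum_congr rfl fun i _ => ?_
  rw [← Fin.sum_univ_eq_sum_range (fun j => Dv (i.1 + 1) (j + 1)) J]
  exact Finset.sum_congr rfl fun j _ => DD_level

theorem exch_core (S : Filled J (Closed J)) (hlv : ∀ a, S.lv a = a.1.1) :
    ∑ k, ∑ l, DD (fun x => S.orb k x * S.orb l x) (fun x => S.orb k x * S.orb l x) =
      ∑ i ∈ range J, ∑ j ∈ range J, Xv (i + 1) (j + 1) := by
  have hE : ∀ k l, EB (fun x => S.orb k x * S.orb l x) := fun k l => (EB_orb S k).mul (EB_orb S l)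
  have h1 : ∀ k l, DD (fun x => S.orb k x * S.orb l x) (fun x => S.orb k x * S.orb l x) =
      ∫ p : R3 × R3, (S.orb k p.1 * S.orb l p.1) * (S.orb k p.2 * S.orb l p.2) / ‖p.1 - p.2‖
        ∂(volume.prod volume) := fun k l => DD_eq_prod (hE k l).nice (hE k l).nice
  have hi : ∀ k l, Integrable (fun p : R3 × R3 => (S.orb k p.1 * S.orb l p.1) *
      (S.orb k p.2 * S.orb l p.2) / ‖p.1 - p.2‖) (volume.prod volume) :=
    fun k l => (hE k l).nice.integrable_DD (hE k l).nice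
  rw [Finset.sum_congr rfl fun k _ => Finset.sum_congr rfl fun l _ => h1 k l]
  rw [Finset.sum_congr rfl fun k _ => (integral_finsetSum _ fun l _ => hi k l).symm,
    ← integral_finsetSum _ fun k _ => integrable_finsetSum _ fun l _ => hi k l]
  have h2 : ∀ p : R3 × R3, ∑ k, ∑ l, (S.orb k p.1 * S.orb l p.1) *
      (S.orb k p.2 * S.orb l p.2) / ‖p.1 - p.2‖ =
      ∑ i ∈ range J, ∑ j ∈ range J, KK (i + 1) p.1 p.2 * KK (j + 1) p.1 p.2 / ‖p.1 - p.2‖ := by
    intro p
    have h3 : ∑ k, ∑ l, (S.orb k p.1 * S.orb l p.1) * (S.orb k p.2 * S.orb l p.2) / ‖p.1 - p.2‖ =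
        kerS S p.1 p.2 * kerS S p.1 p.2 / ‖p.1 - p.2‖ := by
      unfold kerS
      rw [Finset.sum_mul_sum, Finset.sum_div]
      refine Finset.sum_congr rfl fun k _ => ?_
      rw [Finset.sum_div]
      exact Finset.sum_congr rfl fun l _ => by ring
    rw [h3, kerS_eq S hlv, Finset.sum_mul_sum, Finset.sum_div]
    refine Finset.sum_congr rfl fun k _ => ?_
    rw [Finset.sum_div]
  simp only [h2]
  have hX : ∀ i j : ℕ, Integrable (fun p : R3 × R3 =>
      KK (i + 1) p.1 p.2 * KK (j + 1) p.1 p.2 / ‖p.1 - p.2‖) (volume.prod volume) := by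
    intro i j
    exact (X_eq (Nat.succ_pos i) (Nat.succ_pos j)).1
  rw [integral_finsetSum _ fun i _ => integrable_finsetSum _ fun j _ => hX i j]
  refine Finset.sum_congr rfl fun i _ => ?_
  rw [integral_finsetSum _ fun j _ => hX i j]
  exact Finset.sum_congr rfl fun j _ => (X_eq (Nat.succ_pos i) (Nat.succ_pos j)).2

/-- **The Coulomb energy of the closed shells.** -/
theorem coreRep_eq (S : Filled J (Closed J)) (hlv : ∀ a, S.lv a = a.1.1) :
    coreRep S = coreE (J + 1) := by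
  unfold coreRep coreE
  simp only [Finset.sum_sub_distrib, ← Finset.mul_sum]
  rw [direct_core S hlv, exch_core S hlv, Nat.add_sub_cancel]

/-! ### the scalar -/

/-- the first two vectors of the standard basis -/
def b0 : R3 := EuclideanSpace.single 0 1
def b1 : R3 := EuclideanSpace.single 1 1

theorem cw_om (x : R3) : cw x = om b0 b1 x := by
  apply Complex.ext
  · simp [cw, om, b0, EuclideanSpace.inner_single_left]
  · simp [cw, om, b1, EuclideanSpace.inner_single_left]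

theorem b01 : inner ℝ b0 b1 = 0 := by simp [b0, b1, EuclideanSpace.inner_single_left]

theorem b01n : ‖b0‖ = ‖b1‖ := by simp [b0, b1]

theorem exp_sk (J : ℕ) (x : R3) :
    Real.exp (-sk J * ‖x‖) ^ 2 = Real.exp (-(2 / ((J + 1 : ℕ) : ℝ)) * ‖x‖) := by
  rw [← Real.exp_nat_mul]
  congr 1
  unfold sk
  push_cast
  ring

theorem exp_sk2 (J : ℕ) (x y : R3) : Real.exp (-sk J * ‖x‖) * Real.exp (-sk J * ‖y‖) =
    Real.exp (-((‖x‖ + ‖y‖) / ((J + 1 : ℕ) : ℝ))) := by
  rw [← Real.exp_add]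
  congr 1
  unfold sk
  push_cast
  ring

theorem EB_f0 (J : ℕ) : EB (fun x => ‖cw x‖ ^ (2 * J) * Real.exp (-sk J * ‖x‖) ^ 2) := by
  have h1 := EB_Wsp (sk_pos J) (ring0_mem (sk J) J 1)
  have h2 := EB_Wsp (sk_pos J) (ring0_mem (sk J) J Complex.I)
  have h := (h1.mul h1).add (h2.mul h2)
  have e : (fun x => ‖cw x‖ ^ (2 * J) * Real.exp (-sk J * ‖x‖) ^ 2) = fun x =>
      Vale.Agent.P370.H758.ring0 (sk J) J 1 x * Vale.Agent.P370.H758.ring0 (sk J) J 1 x +
      Vale.Agent.P370.H758.ring0 (sk J) J Complex.I x *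
        Vale.Agent.P370.H758.ring0 (sk J) J Complex.I x := by
    funext x; exact (ring0_sq (sk J) J x).symm
  rw [e]
  exact h

theorem direct_one (J : ℕ) {j : ℕ} (hj : 0 < j) :
    DD (fun x => ‖cw x‖ ^ (2 * J) * Real.exp (-sk J * ‖x‖) ^ 2) (fun y => KK j y y) =
      kapJ b0 b1 J * Dw (J + 1) J j := by
  rw [DD_pot hj.ne', ← Dw_eq (Nat.succ_pos J) hj J]
  have h := integral_om_rad b0 b1 J
    (fun r => Real.exp (-(2 / ((J + 1 : ℕ) : ℝ)) * r) * potS j r)
  have e1 : ∀ x : R3, ‖cw x‖ ^ (2 * J) * Real.exp (-sk J * ‖x‖) ^ 2 * potS j ‖x‖ =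
      Real.exp (-(2 / ((J + 1 : ℕ) : ℝ)) * ‖x‖) * potS j ‖x‖ * ‖om b0 b1 x‖ ^ (2 * J) := by
    intro x; rw [exp_sk, cw_om]; ring
  simp_rw [e1]
  rw [h]
  congr 2
  funext x
  ring

theorem nrm0_kap (J : ℕ) : nrm0 (sk J) J = kapJ b0 b1 J * wM (J + 1) := by
  rw [← integral_wS (Nat.succ_ne_zero J)]
  unfold nrm0
  have h := integral_om_rad b0 b1 J (fun r => Real.exp (-(2 / ((J + 1 : ℕ) : ℝ)) * r))
  have e1 : ∀ x : R3, ‖cw x‖ ^ (2 * J) * Real.exp (-sk J * ‖x‖) ^ 2 =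
      Real.exp (-(2 / ((J + 1 : ℕ) : ℝ)) * ‖x‖) * ‖om b0 b1 x‖ ^ (2 * J) := by
    intro x; rw [exp_sk, cw_om]; ring
  simp_rw [e1]
  rw [h]
  congr 2
  funext x
  unfold wS
  rw [show 2 * (J + 1) - 2 = 2 * J by omega, mul_comm]
  congr 2
  ring

theorem exch_one (J : ℕ) {j : ℕ} (hj : 0 < j) :
    Integrable (fun p : R3 × R3 => KK j p.1 p.2 * ((cw p.1 ^ J * conj (cw p.2 ^ J)).re
      * (Real.exp (-sk J * ‖p.1‖) * Real.exp (-sk J * ‖p.2‖))) / ‖p.1 - p.2‖)
        (volume.prod volume) ∧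
    ∫ p : R3 × R3, KK j p.1 p.2 * ((cw p.1 ^ J * conj (cw p.2 ^ J)).re
      * (Real.exp (-sk J * ‖p.1‖) * Real.exp (-sk J * ‖p.2‖))) / ‖p.1 - p.2‖
        ∂(volume.prod volume) = kapJ b0 b1 J * Ev (J + 1) J j := by
  have hk := kE_int (Nat.succ_pos J) hj J
  have hb : ∀ x : R3, ‖om b0 b1 x ^ J‖ ≤ (‖b0‖ + ‖b1‖) ^ J * ‖x‖ ^ J := by
    intro x
    rw [norm_pow, ← mul_pow]
    gcongr
    exact om_norm_le _ _ _
  have hc := (continuous_om b0 b1).pow J
  have hre : Integrable (fun p : R3 × R3 => kE (J + 1) j p.1 p.2 *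
      ((om b0 b1 p.1 ^ J).re * (om b0 b1 p.2 ^ J).re)) (volume.prod volume) := by
    refine hk.dom (g := fun p => (om b0 b1 p.1 ^ J).re * (om b0 b1 p.2 ^ J).re) ?_
      ((‖b0‖ + ‖b1‖) ^ J * (‖b0‖ + ‖b1‖) ^ J) fun p => ?_
    · exact ((Complex.continuous_re.comp (hc.comp continuous_fst)).mul
        (Complex.continuous_re.comp (hc.comp continuous_snd))).measurable
    · rw [abs_mul]
      calc |(om b0 b1 p.1 ^ J).re| * |(om b0 b1 p.2 ^ J).re|
          ≤ ((‖b0‖ + ‖b1‖) ^ J * ‖p.1‖ ^ J) * ((‖b0‖ + ‖b1‖) ^ J * ‖p.2‖ ^ J) := by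
            gcongr
            · exact (Complex.abs_re_le_norm _).trans (hb _)
            · exact (Complex.abs_re_le_norm _).trans (hb _)
        _ = _ := by ring
  have him : Integrable (fun p : R3 × R3 => kE (J + 1) j p.1 p.2 *
      ((om b0 b1 p.1 ^ J).im * (om b0 b1 p.2 ^ J).im)) (volume.prod volume) := by
    refine hk.dom (g := fun p => (om b0 b1 p.1 ^ J).im * (om b0 b1 p.2 ^ J).im) ?_
      ((‖b0‖ + ‖b1‖) ^ J * (‖b0‖ + ‖b1‖) ^ J) fun p => ?_
    · exact ((Complex.continuous_im.comp (hc.comp continuous_fst)).mul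
        (Complex.continuous_im.comp (hc.comp continuous_snd))).measurable
    · rw [abs_mul]
      calc |(om b0 b1 p.1 ^ J).im| * |(om b0 b1 p.2 ^ J).im|
          ≤ ((‖b0‖ + ‖b1‖) ^ J * ‖p.1‖ ^ J) * ((‖b0‖ + ‖b1‖) ^ J * ‖p.2‖ ^ J) := by
            gcongr
            · exact (Complex.abs_im_le_norm _).trans (hb _)
            · exact (Complex.abs_im_le_norm _).trans (hb _)
        _ = _ := by ring
  have e : (fun p : R3 × R3 => KK j p.1 p.2 * ((cw p.1 ^ J * conj (cw p.2 ^ J)).re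
      * (Real.exp (-sk J * ‖p.1‖) * Real.exp (-sk J * ‖p.2‖))) / ‖p.1 - p.2‖) = fun p =>
      kE (J + 1) j p.1 p.2 * ((om b0 b1 p.1 ^ J).re * (om b0 b1 p.2 ^ J).re) +
      kE (J + 1) j p.1 p.2 * ((om b0 b1 p.1 ^ J).im * (om b0 b1 p.2 ^ J).im) := by
    funext p
    rw [exp_sk2, cw_om, cw_om, Complex.mul_re, Complex.conj_re, Complex.conj_im]
    unfold kE
    ring
  rw [e]
  refine ⟨hre.add him, ?_⟩
  rw [integral_add hre him, integral_prod _ hre, integral_prod _ him]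
  exact E_ring b01 b01n (Nat.succ_pos J) hj J

/-- **The scalar of the core mean field.** -/
theorem coreF_fE (S : Filled J (Closed J)) (hlv : ∀ a, S.lv a = a.1.1) :
    coreF S (sk J) J = fE (J + 1) := by
  rw [coreF_eq S (sk_pos J) J]
  have hk : EB (fun y => kerS S y y) := EB_sum _ fun k => (EB_orb S k).mul (EB_orb S k)
  have h1 : DD (fun x => ‖cw x‖ ^ (2 * J) * Real.exp (-sk J * ‖x‖) ^ 2) (fun y => kerS S y y) =
      kapJ b0 b1 J * ∑ j ∈ range J, Dw (J + 1) J (j + 1) := by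
    have e : (fun y => kerS S y y) = fun y => ∑ j : Fin J, KK (j.1 + 1) y y := by
      funext y
      rw [kerS_eq S hlv, ← Fin.sum_univ_eq_sum_range (fun j => KK (j + 1) y y) J]
    rw [e, DD_sum_right _ (fun j => EB_level S hlv j) (EB_f0 J), Finset.mul_sum,
      ← Fin.sum_univ_eq_sum_range (fun j => kapJ b0 b1 J * Dw (J + 1) J (j + 1)) J]
    exact Finset.sum_congr rfl fun j _ => direct_one J (Nat.succ_pos _)
  have h2 : ∫ p : R3 × R3, kerS S p.1 p.2 * ((cw p.1 ^ J * conj (cw p.2 ^ J)).re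
      * (Real.exp (-sk J * ‖p.1‖) * Real.exp (-sk J * ‖p.2‖))) / ‖p.1 - p.2‖
        ∂(volume.prod volume) = kapJ b0 b1 J * ∑ j ∈ range J, Ev (J + 1) J (j + 1) := by
    have e : (fun p : R3 × R3 => kerS S p.1 p.2 * ((cw p.1 ^ J * conj (cw p.2 ^ J)).re
      * (Real.exp (-sk J * ‖p.1‖) * Real.exp (-sk J * ‖p.2‖))) / ‖p.1 - p.2‖) = fun p =>
        ∑ j ∈ range J, KK (j + 1) p.1 p.2 * ((cw p.1 ^ J * conj (cw p.2 ^ J)).re
      * (Real.exp (-sk J * ‖p.1‖) * Real.exp (-sk J * ‖p.2‖))) / ‖p.1 - p.2‖ := by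
      funext p
      rw [kerS_eq S hlv, Finset.sum_mul, Finset.sum_div]
    rw [e, integral_finsetSum _ fun j _ => (exch_one J (Nat.succ_pos j)).1, Finset.mul_sum]
    exact Finset.sum_congr rfl fun j _ => (exch_one J (Nat.succ_pos j)).2
  have h3 := nrm0_pos (sk_pos J) J
  rw [nrm0_kap] at h3
  have hw := wM_pos (J + 1) (Nat.succ_ne_zero J)
  have hkap : kapJ b0 b1 J ≠ 0 := by
    intro h0
    rw [h0, zero_mul] at h3
    exact lt_irrefl _ h3
  rw [h1, h2, nrm0_kap]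
  unfold fE
  rw [Nat.add_sub_cancel, Finset.sum_sub_distrib, ← Finset.mul_sum]
  have hw' := hw.ne'
  field_simp

/-! ### the bound -/

theorem core_abs (S : Filled J (Closed J)) {f g : H1} (hf : f ∈ Shell J) (hg : g ∈ Shell J) :
    |core S f.1.1 g.1.1| ≤ 6 * (Fintype.card (Closed J) : ℝ) * (nrm f * nrm g) := by
  have hEf := EB_shell hf
  have hEg := EB_shell hg
  set c : ℝ := 6 * (Fintype.card (Closed J) : ℝ) with hc
  have hc0 : 0 ≤ c := by positivity
  -- the quadratic form is nonnegative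
  have hq : ∀ t : ℝ, 0 ≤ core S f.1.1 f.1.1 + 2 * t * core S f.1.1 g.1.1 +
      t ^ 2 * core S g.1.1 g.1.1 := by
    intro t
    have hEt := hEg.const_mul t
    have h0 := core_nonneg S (hEf.add hEt)
    rw [core_add_left S hEf hEt (hEf.add hEt), core_symm S hEf (hEf.add hEt),
      core_symm S hEt (hEf.add hEt), core_add_left S hEf hEt hEf, core_add_left S hEf hEt hEt,
      core_smul_left, core_smul_left, core_symm S hEf hEt, core_smul_left,
      core_symm S hEg hEt, core_smul_left, core_symm S hEg hEf] at h0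
    linarith
  have hff := core_le S hEf
  have hgg := core_le S hEg
  have hf2 : (∫ x, f.1.1 x * f.1.1 x) = nrm f ^ 2 := by
    unfold nrm
    rw [Real.sq_sqrt (ip_nonneg f), ip_apply]
  have hg2 : (∫ x, g.1.1 x * g.1.1 x) = nrm g ^ 2 := by
    unfold nrm
    rw [Real.sq_sqrt (ip_nonneg g), ip_apply]
  rw [hf2] at hff
  rw [hg2] at hgg
  have hnf : 0 ≤ nrm f := Real.sqrt_nonneg _
  have hng : 0 ≤ nrm g := Real.sqrt_nonneg _
  -- discriminant
  have hd := discrim_le_zero (a := core S g.1.1 g.1.1) (b := 2 * core S f.1.1 g.1.1)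
    (c := core S f.1.1 f.1.1) fun t => by
      have := hq t
      linarith
  unfold discrim at hd
  have h1 : core S f.1.1 g.1.1 ^ 2 ≤ (c * (nrm f * nrm g)) ^ 2 := by
    have h2 : core S f.1.1 g.1.1 ^ 2 ≤ core S f.1.1 f.1.1 * core S g.1.1 g.1.1 := by nlinarith
    refine h2.trans ?_
    calc core S f.1.1 f.1.1 * core S g.1.1 g.1.1 ≤ (c * nrm f ^ 2) * (c * nrm g ^ 2) :=
          mul_le_mul hff hgg (core_nonneg S hEg) (by positivity)
      _ = _ := by ring
  exact abs_le_of_sq_le_sq h1 (by positivity)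

theorem card_Closed_le (J : ℕ) : Fintype.card (Closed J) ≤ J ^ 3 := by
  rw [card_Closed]
  calc ∑ j ∈ range J, (j + 1) ^ 2 ≤ ∑ _j ∈ range J, J ^ 2 := by
        refine Finset.sum_le_sum fun j hj => ?_
        have : j < J := by simpa using hj
        exact Nat.pow_le_pow_left (by omega) 2
    _ = J ^ 3 := by rw [Finset.sum_const, Finset.card_range, smul_eq_mul]; ring

/-- **Block FieldStmt.** -/
theorem fieldStmt : FieldStmt coreE fE phiC := by
  refine ⟨6, fun J S _ hlv => ⟨fun y hy => pot_core S hlv hy, coreRep_eq S hlv, fun f hf a => ?_,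
    fun f hf g hg => ?_⟩⟩
  · rw [core_ringC S hf a, coreF_fE S hlv]
  · refine (core_abs S hf hg).trans ?_
    have hnf : 0 ≤ nrm f := Real.sqrt_nonneg _
    have hng : 0 ≤ nrm g := Real.sqrt_nonneg _
    refine mul_le_mul_of_nonneg_right ?_ (mul_nonneg hnf hng)
    have h1 : (Fintype.card (Closed J) : ℝ) ≤ (J : ℝ) ^ 3 := by exact_mod_cast card_Closed_le J
    have hJ : (0 : ℝ) ≤ J := Nat.cast_nonneg J
    calc 6 * (Fintype.card (Closed J) : ℝ) ≤ 6 * (J : ℝ) ^ 3 := by linarith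
      _ ≤ 2 ^ 3 * ((J : ℝ) + 2) ^ 3 := by gcongr <;> norm_num
      _ ≤ ((J : ℝ) + 2) ^ 3 * ((J : ℝ) + 2) ^ 3 := by gcongr; linarith
      _ = ((J : ℝ) + 2) ^ 6 := by ring

end

end Vale.Agent.P370.H374
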