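import Vale.Agent.P370.H374.Reg
import Vale.Agent.P370.H32.Rad

/-! The exchange integrals of the closed shells as finite sums. -/

namespace Vale.Agent.P370.H374

open MeasureTheory Set Real Finset
open Vale.Agent.P363.H849 (R3 integral_rad integrable_rad integrableOn_pow_exp integral_pow_exp)
open Vale.Agent.P370.H32 (Reg tri wt measurableSet_Reg measurable_tri measurable_wt wt_nonneg
  integrable_tri integral_tri aR KK Ssym hsym uu vv A0 aQ A0_pos)
open scoped Nat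

noncomputable section

theorem sum_even_odd (f : ℕ → ℝ) (N : ℕ) :
    ∑ k ∈ range (2 * N), f k = ∑ l ∈ range N, (f (2 * l) + f (2 * l + 1)) := by
  induction N with
  | zero => simp
  | succ N ih =>
    rw [show 2 * (N + 1) = 2 * N + 1 + 1 by ring, sum_range_succ, sum_range_succ, ih,
      sum_range_succ (fun l => f (2 * l) + f (2 * l + 1))]
    ring

theorem hsym_mul (m : ℕ) (u v : ℝ) : hsym m u v * (u - v) = u ^ (m + 1) - v ^ (m + 1) := by
  rw [← (Commute.all u v).geom_sum₂_mul (m + 1)]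
  rfl

/-- `h_m(σ+s, σ-s)` -/
theorem hsym_sigma (M N : ℕ) (hN : M + 1 ≤ N) (σ : ℝ) {s : ℝ} (hs : s ≠ 0) :
    hsym M (σ + s) (σ - s) =
      ∑ l ∈ range N, ((M + 1).choose (2 * l + 1) : ℝ) * (σ ^ (M - 2 * l) * s ^ (2 * l)) := by
  have h1 := hsym_mul M (σ + s) (σ - s)
  have h2 : (σ + s) - (σ - s) = 2 * s := by ring
  have h3 : (2 * s) ≠ 0 := by positivity
  rw [h2] at h1
  apply mul_right_cancel₀ h3
  rw [h1, add_comm σ s, show σ - s = -s + σ by ring, add_pow, add_pow, ← sum_sub_distrib]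
  have h4 : ∑ k ∈ range (M + 1 + 1), (s ^ k * σ ^ (M + 1 - k) * ((M + 1).choose k : ℝ) -
      (-s) ^ k * σ ^ (M + 1 - k) * ((M + 1).choose k : ℝ)) =
      ∑ k ∈ range (2 * N), (s ^ k * σ ^ (M + 1 - k) * ((M + 1).choose k : ℝ) -
      (-s) ^ k * σ ^ (M + 1 - k) * ((M + 1).choose k : ℝ)) := by
    apply sum_subset
    · intro k hk; simp at hk ⊢; omega
    · intro k _ hk
      simp only [Finset.mem_range, not_lt] at hk
      rw [Nat.choose_eq_zero_of_lt (by omega)]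
      simp
  rw [h4, sum_even_odd, sum_mul]
  refine sum_congr rfl fun l _ => ?_
  rw [Even.neg_pow (even_two_mul l), Odd.neg_pow (odd_two_mul_add_one l),
    show M + 1 - (2 * l + 1) = M - 2 * l by omega]
  ring

/-- coefficients of `S_n(σ+s,σ-s)` -/
def cS (n j i l : ℕ) : ℝ :=
  -(((j : ℝ) - i) * aR n i * aR n j * ((j - i).choose (2 * l + 1) : ℝ))

theorem Ssym_sigma (n : ℕ) (σ : ℝ) {s : ℝ} (hs : s ≠ 0) :
    Ssym n (σ + s) (σ - s) = ∑ j ∈ range (n + 1), ∑ i ∈ range j, ∑ l ∈ range (n + 1),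
      cS n j i l * ((σ ^ 2 - s ^ 2) ^ i * σ ^ (j - i - 1 - 2 * l) * s ^ (2 * l)) := by
  unfold Ssym
  rw [← sum_neg_distrib]
  refine sum_congr rfl fun j hj => ?_
  rw [← sum_neg_distrib]
  refine sum_congr rfl fun i hi => ?_
  have hj' : j ≤ n := by simp at hj; omega
  have hi' : i < j := by simpa using hi
  rw [hsym_sigma (j - i - 1) (n + 1) (by omega) σ hs, mul_sum, ← sum_neg_distrib]
  refine sum_congr rfl fun l _ => ?_
  have h1 : (σ + s) * (σ - s) = σ ^ 2 - s ^ 2 := by ring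
  rw [h1, show j - i - 1 + 1 = j - i by omega]
  unfold cS
  simp only [aR]
  ring

/-- the exchange integral of two closed shells -/
def Xv (n m : ℕ) : ℝ :=
  4 / (A0 n * A0 m) * ∑ j ∈ range (n + 1), ∑ i ∈ range j, ∑ l ∈ range (n + 1),
    ∑ j' ∈ range (m + 1), ∑ i' ∈ range j', ∑ l' ∈ range (m + 1),
      cS n j i l * cS m j' i' l' *
        Iv (1 / n + 1 / m) ((j - i - 1 - 2 * l) + (j' - i' - 1 - 2 * l')) (i + i') (l + l') 0

/-- the radial part of the kernel in triangle coordinates -/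
def Kt (n : ℕ) (z : ℝ × ℝ × ℝ) : ℝ :=
  2 / (π * A0 n) * Ssym n (z.1 + z.2.1) (z.1 - z.2.1) * exp (-(z.1 / n))

theorem KK_tri (n : ℕ) (p : R3 × R3) : KK n p.1 p.2 = Kt n (tri p) := by
  unfold KK Kt uu vv tri
  simp

theorem measurable_Ssym (n : ℕ) : Measurable (fun z : ℝ × ℝ × ℝ => Ssym n (z.1 + z.2.1) (z.1 - z.2.1)) := by
  unfold Ssym hsym
  fun_prop

theorem measurable_Kt (n : ℕ) : Measurable (Kt n) := by
  unfold Kt
  exact ((measurable_Ssym n).const_mul _).mul (by fun_prop)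

theorem X_HasI {n m : ℕ} (hn : 0 < n) (hm : 0 < m) :
    HasI (fun z => wt z * (Kt n z * Kt m z / z.2.1)) (Xv n m) := by
  have hc : (0 : ℝ) < 1 / n + 1 / m := by positivity
  unfold Xv
  have h1 : HasI (fun z => ∑ j ∈ range (n + 1), ∑ i ∈ range j, ∑ l ∈ range (n + 1),
    ∑ j' ∈ range (m + 1), ∑ i' ∈ range j', ∑ l' ∈ range (m + 1),
      cS n j i l * cS m j' i' l' *
        Tf (1 / n + 1 / m) ((j - i - 1 - 2 * l) + (j' - i' - 1 - 2 * l')) (i + i') (l + l') 0 z)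
      (∑ j ∈ range (n + 1), ∑ i ∈ range j, ∑ l ∈ range (n + 1),
    ∑ j' ∈ range (m + 1), ∑ i' ∈ range j', ∑ l' ∈ range (m + 1),
      cS n j i l * cS m j' i' l' *
        Iv (1 / n + 1 / m) ((j - i - 1 - 2 * l) + (j' - i' - 1 - 2 * l')) (i + i') (l + l') 0) :=
    HasI.sum _ fun j _ => HasI.sum _ fun i _ => HasI.sum _ fun l _ => HasI.sum _ fun j' _ =>
      HasI.sum _ fun i' _ => HasI.sum _ fun l' _ => (hasI_Tf hc _ _ _ _).const_mul _
  refine (h1.const_mul (4 / (A0 n * A0 m))).congr fun z hz => ?_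
  obtain ⟨h2, h3, h4⟩ := Reg_pos hz
  have hs : z.2.1 ≠ 0 := h2.ne'
  unfold wt Kt
  rw [Ssym_sigma n z.1 hs, Ssym_sigma m z.1 hs]
  have hA := (A0_pos hn).ne'
  have hB := (A0_pos hm).ne'
  have hpi := Real.pi_ne_zero
  have hexp : exp (-(z.1 / n)) * exp (-(z.1 / m)) = exp (-(1 / n + 1 / m) * z.1) := by
    rw [← Real.exp_add]; congr 1; ring
  have h5 : ∀ S₁ S₂ : ℝ, π ^ 2 * z.2.1 * (z.1 ^ 2 - z.2.2 ^ 2) *
      (2 / (π * A0 n) * S₁ * exp (-(z.1 / n)) * (2 / (π * A0 m) * S₂ * exp (-(z.1 / m))) / z.2.1) =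
      4 / (A0 n * A0 m) * (S₁ * S₂ *
      ((exp (-(z.1 / n)) * exp (-(z.1 / m))) * (z.1 ^ 2 - z.2.2 ^ 2))) := by
    intro S₁ S₂
    field_simp
    ring
  rw [h5, hexp]
  congr 1
  simp only [sum_mul]
  refine sum_congr rfl fun j _ => sum_congr rfl fun i _ => sum_congr rfl fun l _ => ?_
  simp only [mul_sum, sum_mul]
  refine sum_congr rfl fun j' _ => sum_congr rfl fun i' _ => sum_congr rfl fun l' _ => ?_
  unfold Tf
  rw [pow_add, pow_add, Nat.mul_add, pow_add]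
  ring

/-- **Exchange integral of two closed shells.** -/
theorem X_eq {n m : ℕ} (hn : 0 < n) (hm : 0 < m) :
    Integrable (fun p : R3 × R3 => KK n p.1 p.2 * KK m p.1 p.2 / ‖p.1 - p.2‖) ∧
    ∫ p : R3 × R3, KK n p.1 p.2 * KK m p.1 p.2 / ‖p.1 - p.2‖ = Xv n m := by
  have h := X_HasI hn hm
  have hm : Measurable (fun z : ℝ × ℝ × ℝ => Kt n z * Kt m z / z.2.1) :=
    ((measurable_Kt n).mul (measurable_Kt m)).div (by fun_prop)
  have e : (fun p : R3 × R3 => KK n p.1 p.2 * KK m p.1 p.2 / ‖p.1 - p.2‖) =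
      fun p => (fun z : ℝ × ℝ × ℝ => Kt n z * Kt m z / z.2.1) (tri p) := by
    funext p
    simp only [KK_tri]
    rfl
  rw [e]
  exact ⟨(integrable_tri hm).2 h.1, (integral_tri hm).trans h.2⟩

end

end Vale.Agent.P370.H374
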