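import Vale.Agent.P370.H374.Fex
import Vale.Agent.P370.H227.Ring

/-! The direct integrals with the closed shells as finite sums. -/

namespace Vale.Agent.P370.H374

open MeasureTheory Set Real Finset
open Vale.Agent.P363.H849 (R3 integral_rad integrable_rad integrableOn_pow_exp integral_pow_exp)
open Vale.Agent.P370.H32 (aR KK Ssym hsym uu vv A0 aQ A0_pos)
open Vale.Agent.P370.H227 (potS integral_KK_div Gc Gn GZ Hd one_le_GZ potS_eq integral_radial3 wS wM
  integral_wS hsym_self)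
open scoped Nat

noncomputable section

/-- `∫₀^∞ r^m e^{-cr} (1 - G_j(2r/j)/G_j(0) e^{-2r/j}) dr` -/
def PM (c : ℝ) (m j : ℕ) : ℝ :=
  (m ! : ℝ) / c ^ (m + 1) - 1 / (GZ j : ℝ) * ∑ l ∈ range (j + 1), ∑ i ∈ range l, (Gc j i l : ℝ) *
    ∑ b ∈ range (i + l + 1), (((i + l : ℕ) : ℝ) + 1 - b) * ((2 / j) ^ b / b !) *
      (((m + b)! : ℝ) / (c + 2 / j) ^ (m + b + 1))

theorem intOn_me (m : ℕ) {c : ℝ} (hc : 0 < c) :
    IntegrableOn (fun r : ℝ => r ^ m * exp (-c * r)) (Ioi 0) := integrableOn_pow_exp m hc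

theorem int_PM {c : ℝ} (hc : 0 < c) (m : ℕ) {j : ℕ} (hj : 0 < j) :
    IntegrableOn (fun r : ℝ => r ^ m * exp (-c * r) * (r * potS j r)) (Ioi 0) ∧
    ∫ r in Ioi (0 : ℝ), r ^ m * exp (-c * r) * (r * potS j r) = (j : ℝ) ^ 2 * PM c m j := by
  have hj0 : j ≠ 0 := hj.ne'
  have hj1 : (0 : ℝ) < j := by exact_mod_cast hj
  have hc2 : 0 < c + 2 / j := by positivity
  have hG : (GZ j : ℝ) ≠ 0 := by
    have h := one_le_GZ hj0
    have : (1 : ℝ) ≤ (GZ j : ℝ) := by exact_mod_cast h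
    linarith
  have h1 : ∀ r ∈ Ioi (0 : ℝ), r ^ m * exp (-c * r) * (r * potS j r) =
      (j : ℝ) ^ 2 * (r ^ m * exp (-c * r) - 1 / (GZ j : ℝ) * ∑ l ∈ range (j + 1), ∑ i ∈ range l,
        (Gc j i l : ℝ) * ∑ b ∈ range (i + l + 1), (((i + l : ℕ) : ℝ) + 1 - b) *
          ((2 / j) ^ b / b !) * (r ^ (m + b) * exp (-(c + 2 / j) * r))) := by
    intro r hr
    have hr0 : r ≠ 0 := (Set.mem_Ioi.1 hr).ne'
    rw [potS_eq hj0]
    have hexp : exp (-(c + 2 / j) * r) = exp (-c * r) * exp (-(2 * r / j)) := by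
      rw [← Real.exp_add]; congr 1; ring
    have h2 : ∑ l ∈ range (j + 1), ∑ i ∈ range l,
        (Gc j i l : ℝ) * ∑ b ∈ range (i + l + 1), (((i + l : ℕ) : ℝ) + 1 - b) *
          ((2 / j) ^ b / b !) * (r ^ (m + b) * exp (-(c + 2 / j) * r)) =
        r ^ m * exp (-c * r) * exp (-(2 * r / j)) * Gn j (2 * r / j) := by
      unfold Gn
      rw [mul_sum]
      refine sum_congr rfl fun l _ => ?_
      rw [mul_sum]
      refine sum_congr rfl fun i _ => ?_
      unfold Hd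
      rw [mul_sum, mul_sum, mul_sum]
      refine sum_congr rfl fun b _ => ?_
      rw [hexp, div_pow, div_pow, mul_pow, pow_add]
      push_cast
      field_simp
    rw [h2]
    field_simp
  have hS : ∀ (l i b : ℕ), IntegrableOn (fun r : ℝ => (((i + l : ℕ) : ℝ) + 1 - b) *
          ((2 / j) ^ b / b !) * (r ^ (m + b) * exp (-(c + 2 / j) * r))) (Ioi 0) :=
    fun l i b => (intOn_me (m + b) hc2).const_mul _
  have hS2 : ∀ (l i : ℕ), IntegrableOn (fun r : ℝ => (Gc j i l : ℝ) * ∑ b ∈ range (i + l + 1),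
      (((i + l : ℕ) : ℝ) + 1 - b) *
          ((2 / j) ^ b / b !) * (r ^ (m + b) * exp (-(c + 2 / j) * r))) (Ioi 0) :=
    fun l i => (integrable_finsetSum _ fun b _ => hS l i b).const_mul _
  have hS3 : ∀ (l : ℕ), IntegrableOn (fun r : ℝ => ∑ i ∈ range l, (Gc j i l : ℝ) *
      ∑ b ∈ range (i + l + 1), (((i + l : ℕ) : ℝ) + 1 - b) *
          ((2 / j) ^ b / b !) * (r ^ (m + b) * exp (-(c + 2 / j) * r))) (Ioi 0) :=
    fun l => integrable_finsetSum _ fun i _ => hS2 l i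
  have hS4 : IntegrableOn (fun r : ℝ => 1 / (GZ j : ℝ) * ∑ l ∈ range (j + 1), ∑ i ∈ range l,
      (Gc j i l : ℝ) * ∑ b ∈ range (i + l + 1), (((i + l : ℕ) : ℝ) + 1 - b) *
          ((2 / j) ^ b / b !) * (r ^ (m + b) * exp (-(c + 2 / j) * r))) (Ioi 0) :=
    (integrable_finsetSum _ fun l _ => hS3 l).const_mul _
  constructor
  · refine IntegrableOn.congr_fun ?_ (fun r hr => (h1 r hr).symm) measurableSet_Ioi
    exact ((intOn_me m hc).sub hS4).const_mul _
  · rw [setIntegral_congr_fun measurableSet_Ioi h1, integral_const_mul,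
      integral_sub (intOn_me m hc) hS4, integral_pow_exp _ hc, integral_const_mul,
      integral_finsetSum _ fun l _ => hS3 l]
    unfold PM
    congr 3
    refine sum_congr rfl fun l _ => ?_
    rw [integral_finsetSum _ fun i _ => hS2 l i]
    refine sum_congr rfl fun i _ => ?_
    rw [integral_const_mul, integral_finsetSum _ fun b _ => hS l i b]
    congr 1
    refine sum_congr rfl fun b _ => ?_
    rw [integral_const_mul, integral_pow_exp _ hc2]

/-- coefficients of the density of the closed shell `i` -/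
def dS (i a l : ℕ) : ℝ := -(((l : ℝ) - a) ^ 2 * aR i a * aR i l * 2 ^ (a + l))

theorem Ssym_diag (n : ℕ) (w : ℝ) : w * Ssym n w w = ∑ l ∈ range (n + 1), ∑ a ∈ range l,
    -(((l : ℝ) - a) ^ 2 * aR n a * aR n l) * w ^ (a + l) := by
  unfold Ssym
  rw [mul_neg, mul_sum, ← sum_neg_distrib]
  refine sum_congr rfl fun l _ => ?_
  rw [mul_sum, ← sum_neg_distrib]
  refine sum_congr rfl fun a ha => ?_
  have ha' : a < l := by simpa using ha
  rw [hsym_self, mul_pow]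
  have h1 : ((l - a - 1 : ℕ) : ℝ) + 1 = (l : ℝ) - a := by
    have : ((l - a - 1 : ℕ) : ℝ) = (l : ℝ) - a - 1 := by
      rw [Nat.cast_sub (by omega), Nat.cast_sub (by omega)]; simp
    rw [this]; ring
  have h2 : w ^ (a + l) = w * (w ^ a * w ^ a * w ^ (l - a - 1)) := by
    rw [← pow_add, ← pow_add, ← pow_succ']
    congr 1
    omega
  rw [h1, h2]
  simp only [aR]
  ring

/-- the density of the closed shell -/
theorem KK_diag (i : ℕ) (x : R3) : ‖x‖ * KK i x x = 1 / (π * A0 i) *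
    ∑ l ∈ range (i + 1), ∑ a ∈ range l, dS i a l * (‖x‖ ^ (a + l) * exp (-(2 / i) * ‖x‖)) := by
  unfold KK uu vv
  rw [sub_self, norm_zero, add_zero, sub_zero]
  have hexp : exp (-((‖x‖ + ‖x‖) / i)) = exp (-(2 / i) * ‖x‖) := by congr 1; ring
  have h1 := Ssym_diag i (‖x‖ + ‖x‖)
  have h2 : ‖x‖ * (2 / (π * A0 i) * Ssym i (‖x‖ + ‖x‖) (‖x‖ + ‖x‖) *
      exp (-((‖x‖ + ‖x‖) / i))) = 1 / (π * A0 i) *
      (((‖x‖ + ‖x‖) * Ssym i (‖x‖ + ‖x‖) (‖x‖ + ‖x‖)) * exp (-(2 / i) * ‖x‖)) := by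
    rw [hexp]; ring
  rw [h2, h1, sum_mul]
  congr 1
  refine sum_congr rfl fun l _ => ?_
  rw [sum_mul]
  refine sum_congr rfl fun a _ => ?_
  unfold dS
  have h3 : (‖x‖ + ‖x‖) ^ (a + l) = 2 ^ (a + l) * ‖x‖ ^ (a + l) := by
    rw [← two_mul, mul_pow]
  rw [h3]
  ring

/-- the direct integral of the closed shells `i`, `j` -/
def Dv (i j : ℕ) : ℝ :=
  4 * (j : ℝ) ^ 2 / A0 i * ∑ l ∈ range (i + 1), ∑ a ∈ range l, dS i a l * PM (2 / i) (a + l) j

theorem D_eq {i j : ℕ} (hi : 0 < i) (hj : 0 < j) :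
    ∫ x : R3, KK i x x * potS j ‖x‖ = Dv i j := by
  have hi1 : (0 : ℝ) < i := by exact_mod_cast hi
  have hc : (0 : ℝ) < 2 / i := by positivity
  have hA := (A0_pos hi).ne'
  set F : ℝ → ℝ := fun r => 1 / (π * A0 i) * (∑ l ∈ range (i + 1), ∑ a ∈ range l,
    dS i a l * (r ^ (a + l) * exp (-(2 / i) * r))) * (potS j r / r) with hF
  have h1 : ∫ x : R3, KK i x x * potS j ‖x‖ = ∫ x : R3, F ‖x‖ := by
    have hae : ∀ᵐ x : R3, x ≠ 0 := by rw [ae_iff]; simp
    refine integral_congr_ae ?_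
    filter_upwards [hae] with x hx
    have hn : ‖x‖ ≠ 0 := norm_ne_zero_iff.2 hx
    simp only [hF]
    rw [← KK_diag]
    field_simp
  rw [h1, integral_rad]
  have h2 : ∀ r ∈ Ioi (0 : ℝ), r ^ 2 * F r = 1 / (π * A0 i) * ∑ l ∈ range (i + 1), ∑ a ∈ range l,
      dS i a l * (r ^ (a + l) * exp (-(2 / i) * r) * (r * potS j r)) := by
    intro r hr
    have hr0 : r ≠ 0 := (Set.mem_Ioi.1 hr).ne'
    simp only [hF]
    have h3 : ∀ S : ℝ, r ^ 2 * (1 / (π * A0 i) * S * (potS j r / r)) =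
        1 / (π * A0 i) * (S * (r * potS j r)) := by
      intro S; field_simp
    rw [h3, sum_mul]
    congr 1
    refine sum_congr rfl fun l _ => ?_
    rw [sum_mul]
    refine sum_congr rfl fun a _ => ?_
    ring
  rw [setIntegral_congr_fun measurableSet_Ioi h2, integral_const_mul,
    integral_finsetSum _ fun l _ => integrable_finsetSum _ fun a _ =>
      (int_PM hc (a + l) hj).1.const_mul (dS i a l)]
  have h4 : ∀ l ∈ range (i + 1), ∫ r in Ioi (0 : ℝ), ∑ a ∈ range l,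
      dS i a l * (r ^ (a + l) * exp (-(2 / i) * r) * (r * potS j r)) =
      (j : ℝ) ^ 2 * ∑ a ∈ range l, dS i a l * PM (2 / i) (a + l) j := by
    intro l _
    rw [integral_finsetSum _ fun a _ => (int_PM hc (a + l) hj).1.const_mul (dS i a l), mul_sum]
    refine sum_congr rfl fun a _ => ?_
    rw [integral_const_mul, (int_PM hc (a + l) hj).2]
    ring
  rw [sum_congr rfl h4, ← mul_sum]
  unfold Dv
  have hpi := Real.pi_ne_zero
  field_simp

/-- the direct integral of the closed shell `j` with the density `|x|^(2J) e^{-2|x|/n}` -/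
def Dw (n J j : ℕ) : ℝ := 4 * π * (j : ℝ) ^ 2 * PM (2 / n) (2 * J + 1) j

theorem Dw_eq {n j : ℕ} (hn : 0 < n) (hj : 0 < j) (J : ℕ) :
    ∫ x : R3, ‖x‖ ^ (2 * J) * exp (-(2 / n) * ‖x‖) * potS j ‖x‖ = Dw n J j := by
  have hc : (0 : ℝ) < 2 / n := by positivity
  rw [integral_rad (fun r => r ^ (2 * J) * exp (-(2 / n) * r) * potS j r)]
  have h2 : ∀ r ∈ Ioi (0 : ℝ), r ^ 2 * (r ^ (2 * J) * exp (-(2 / n) * r) * potS j r) =
      r ^ (2 * J + 1) * exp (-(2 / n) * r) * (r * potS j r) := by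
    intro r _; ring
  rw [setIntegral_congr_fun measurableSet_Ioi h2, (int_PM hc (2 * J + 1) hj).2]
  unfold Dw
  ring

/-- **The Coulomb energy of the closed shells `1, …, n - 1`**: `∬ (2 K(x,x) K(y,y) - K(x,y)²)/|x-y|`. -/
def coreE (n : ℕ) : ℝ :=
  ∑ i ∈ range (n - 1), ∑ j ∈ range (n - 1), (2 * Dv (i + 1) (j + 1) - Xv (i + 1) (j + 1))

/-- **The core mean field on the top circular orbitals of the shell `n`.** -/
def fE (n : ℕ) : ℝ :=
  (∑ j ∈ range (n - 1), (2 * Dw n (n - 1) (j + 1) - Ev n (n - 1) (j + 1))) / wM n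

end

end Vale.Agent.P370.H374
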