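import Vale.Agent.P370.H374.Exch

/-! Elementary integrals in the coordinates `σ = |x|+|y|`, `s = |x-y|`, `δ = |x|-|y|`. -/

namespace Vale.Agent.P370.H374

open MeasureTheory Set Real Finset
open Vale.Agent.P363.H849 (R3 integral_rad integrable_rad integrableOn_pow_exp integral_pow_exp)
open scoped Nat

noncomputable section

/-- `∫_{-1}^{1} (1-t²)^k dt` -/
def wk (k : ℕ) : ℝ := 2 ^ (2 * k + 1) * (k ! : ℝ) ^ 2 / ((2 * k + 1)! : ℝ)

theorem wk_zero : wk 0 = 2 := by simp [wk]

theorem wk_succ (k : ℕ) : wk (k + 1) * (2 * k + 3) = wk k * (2 * k + 2) := by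
  unfold wk
  have h1 : (2 * (k + 1) + 1)! = (2 * k + 3) * ((2 * k + 2) * (2 * k + 1)!) := by
    rw [show 2 * (k + 1) + 1 = (2 * k + 2) + 1 by ring, Nat.factorial_succ,
      show 2 * k + 2 = (2 * k + 1) + 1 by ring, Nat.factorial_succ]
  have h2 : ((2 * k + 1)! : ℝ) ≠ 0 := by positivity
  rw [h1, Nat.factorial_succ]
  push_cast
  field_simp
  ring

theorem wk_pos (k : ℕ) : 0 < wk k := by unfold wk; positivity

/-- `∫_{-s}^{s} (s²-t²)^k dt` -/
theorem int_wk (k : ℕ) (s : ℝ) : ∫ t in (-s)..s, (s ^ 2 - t ^ 2) ^ k = wk k * s ^ (2 * k + 1) := by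
  induction k with
  | zero => simp [wk]; ring
  | succ k ih =>
    have hd : ∀ t ∈ uIcc (-s) s, HasDerivAt (fun t => t * (s ^ 2 - t ^ 2) ^ (k + 1))
        ((2 * k + 3) * (s ^ 2 - t ^ 2) ^ (k + 1) - (2 * k + 2) * s ^ 2 * (s ^ 2 - t ^ 2) ^ k) t := by
      intro t _
      have h1 : HasDerivAt (fun t : ℝ => s ^ 2 - t ^ 2) (-(2 * t)) t := by
        have := (hasDerivAt_pow 2 t).const_sub (s ^ 2)
        simpa using this
      have h2 := (hasDerivAt_id t).mul (h1.pow (k + 1))
      convert! h2 using 1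
      simp only [id, Nat.add_sub_cancel, Pi.pow_apply]
      push_cast
      ring
    have hi := intervalIntegral.integral_eq_sub_of_hasDerivAt hd (by
      apply Continuous.intervalIntegrable
      fun_prop)
    rw [intervalIntegral.integral_sub (by apply Continuous.intervalIntegrable; fun_prop)
      (by apply Continuous.intervalIntegrable; fun_prop),
      intervalIntegral.integral_const_mul, intervalIntegral.integral_const_mul, ih] at hi
    have h3 : s ^ 2 - s ^ 2 = 0 := by ring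
    have h4 : s ^ 2 - (-s) ^ 2 = 0 := by ring
    rw [h3, h4] at hi
    have h5 := wk_succ k
    have h6 : (2 * (k : ℝ) + 3) ≠ 0 := by positivity
    apply mul_left_cancel₀ h6
    have h7 : s ^ (2 * (k + 1) + 1) = s ^ 2 * s ^ (2 * k + 1) := by ring
    rw [h7]
    simp only [zero_pow (Nat.succ_ne_zero k), mul_zero, sub_zero] at hi
    linear_combination hi + (-(s ^ 2 * s ^ (2 * k + 1))) * h5

/-- the `δ`-integral of the exchange integrand -/
theorem int_delta (k : ℕ) (s σ : ℝ) :
    ∫ t in (-s)..s, (s ^ 2 - t ^ 2) ^ k * (σ ^ 2 - t ^ 2) =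
      wk k * s ^ (2 * k + 1) * (σ ^ 2 - s ^ 2 / (2 * k + 3)) := by
  have h1 : ∀ t : ℝ, (s ^ 2 - t ^ 2) ^ k * (σ ^ 2 - t ^ 2) =
      (s ^ 2 - t ^ 2) ^ (k + 1) + (σ ^ 2 - s ^ 2) * (s ^ 2 - t ^ 2) ^ k := by
    intro t; ring
  simp_rw [h1]
  rw [intervalIntegral.integral_add (by apply Continuous.intervalIntegrable; fun_prop)
      (by apply Continuous.intervalIntegrable; fun_prop), intervalIntegral.integral_const_mul, int_wk, int_wk]
  have h5 := wk_succ k
  have h6 : (2 * (k : ℝ) + 3) ≠ 0 := by positivity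
  have h7 : s ^ (2 * (k + 1) + 1) = s ^ 2 * s ^ (2 * k + 1) := by ring
  rw [h7]
  field_simp
  linear_combination (s ^ 2 * s ^ (2 * k + 1)) * h5

/-- the Beta integral -/
theorem int_beta (p q : ℕ) (σ : ℝ) :
    ∫ s in (0 : ℝ)..σ, (σ ^ 2 - s ^ 2) ^ p * s ^ (2 * q + 1) =
      (p ! : ℝ) * q ! / (2 * ((p + q + 1)! : ℝ)) * σ ^ (2 * p + 2 * q + 2) := by
  induction p generalizing q with
  | zero =>
    simp only [pow_zero, one_mul]
    rw [integral_pow]
    simp only [zero_add, Nat.factorial_zero, Nat.cast_one, one_mul]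
    rw [Nat.factorial_succ q]
    have : (q ! : ℝ) ≠ 0 := by positivity
    push_cast
    field_simp
    ring
  | succ p ih =>
    have hd : ∀ s ∈ uIcc 0 σ, HasDerivAt (fun s => (σ ^ 2 - s ^ 2) ^ (p + 1) * s ^ (2 * q + 2))
        ((2 * q + 2) * ((σ ^ 2 - s ^ 2) ^ (p + 1) * s ^ (2 * q + 1)) -
          (2 * p + 2) * ((σ ^ 2 - s ^ 2) ^ p * s ^ (2 * (q + 1) + 1))) s := by
      intro s _
      have h1 : HasDerivAt (fun t : ℝ => σ ^ 2 - t ^ 2) (-(2 * s)) s := by
        have := (hasDerivAt_pow 2 s).const_sub (σ ^ 2)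
        simpa using this
      have h2 := (h1.pow (p + 1)).mul (hasDerivAt_pow (2 * q + 2) s)
      convert! h2 using 1
      simp only [Nat.add_sub_cancel, Pi.pow_apply]
      rw [show 2 * q + 2 - 1 = 2 * q + 1 by omega]
      push_cast
      ring
    have hi := intervalIntegral.integral_eq_sub_of_hasDerivAt hd (by
      apply Continuous.intervalIntegrable
      fun_prop)
    rw [intervalIntegral.integral_sub (by apply Continuous.intervalIntegrable; fun_prop)
      (by apply Continuous.intervalIntegrable; fun_prop),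
      intervalIntegral.integral_const_mul, intervalIntegral.integral_const_mul, ih (q + 1)] at hi
    have h3 : σ ^ 2 - σ ^ 2 = 0 := by ring
    rw [h3, zero_pow (Nat.succ_ne_zero p), zero_mul, zero_pow (show 2 * q + 2 ≠ 0 by omega),
      mul_zero, sub_zero] at hi
    have h6 : (2 * (q : ℝ) + 2) ≠ 0 := by positivity
    apply mul_left_cancel₀ h6
    rw [sub_eq_zero] at hi
    rw [hi, Nat.factorial_succ p, Nat.factorial_succ q]
    rw [show p + 1 + q + 1 = p + (q + 1) + 1 by ring]
    have : ((p + (q + 1) + 1)! : ℝ) ≠ 0 := by positivity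
    push_cast
    field_simp
    ring

end

end Vale.Agent.P370.H374
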