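import Vale.Agent.P370.H374.Hecke

/-! Exchange integrals of the two top circular orbitals `Re ω^J`, `Im ω^J` with a rotation
invariant kernel. -/

namespace Vale.Agent.P370.H374

open MeasureTheory Set Real Finset Metric
open Vale.Agent.P363.H849 (R3 integral_rad integrable_rad integrableOn_pow_exp integral_pow_exp)

noncomputable section

/-- Polar coordinates for functions that separate. -/
theorem polar_sep (h : R3 → ℝ) (F : sphere (0 : R3) 1 → ℝ) (g : ℝ → ℝ)
    (hh : ∀ (u : sphere (0 : R3) 1) (r : ℝ), 0 < r → h (r • (u : R3)) = F u * g r) :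
    ∫ x, h x = (∫ u, F u ∂((volume : Measure R3).toSphere)) *
      ∫ r in Ioi (0 : ℝ), r ^ 2 * g r := by
  have hfr : Module.finrank ℝ R3 = 3 := by simp
  calc
    ∫ x, h x = ∫ x : ({(0)}ᶜ : Set R3), h x.1 ∂((volume : Measure R3).comap (↑)) := by
      rw [integral_subtype_comap (measurableSet_singleton _).compl fun x ↦ h x,
        restrict_compl_singleton]
    _ = ∫ x : ({(0)}ᶜ : Set R3),
        (fun p : sphere (0 : R3) 1 × Ioi (0 : ℝ) => F p.1 * g p.2)
          (homeomorphUnitSphereProd R3 x) ∂((volume : Measure R3).comap (↑)) := by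
      apply integral_congr_ae
      refine .of_forall fun x => ?_
      have hx : 0 < ‖(x : R3)‖ := norm_pos_iff.2 x.2
      have h1 := hh (homeomorphUnitSphereProd R3 x).1 (homeomorphUnitSphereProd R3 x).2
        (homeomorphUnitSphereProd R3 x).2.2
      change h x = _
      refine Eq.trans ?_ h1
      congr 1
      simp [homeomorphUnitSphereProd, smul_smul, hx.ne']
    _ = ∫ p : sphere (0 : R3) 1 × Ioi (0 : ℝ), F p.1 * g p.2
          ∂(((volume : Measure R3).toSphere).prod (.volumeIoiPow 2)) := by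
      have := (volume : Measure R3).measurePreserving_homeomorphUnitSphereProd.integral_comp
        (Homeomorph.measurableEmbedding _)
        (fun p : sphere (0 : R3) 1 × Ioi (0 : ℝ) => F p.1 * g p.2)
      rw [hfr] at this
      exact this
    _ = (∫ u, F u ∂((volume : Measure R3).toSphere)) *
          ∫ r : Ioi (0 : ℝ), g r ∂(.volumeIoiPow 2) := by
      exact integral_prod_mul F (fun r : Ioi (0 : ℝ) => g r)
    _ = _ := by
      congr 1
      simp only [Measure.volumeIoiPow, ENNReal.ofReal]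
      rw [integral_withDensity_eq_integral_smul,
        integral_subtype_comap measurableSet_Ioi fun a ↦ Real.toNNReal (a ^ 2) • g a,
        setIntegral_congr_fun measurableSet_Ioi fun x hx ↦ ?_]
      · rw [NNReal.smul_def, Real.coe_toNNReal _ (pow_nonneg hx.out.le _), smul_eq_mul]
      · exact (measurable_subtype_coe.pow_const _).real_toNNReal

/-- the angular average of `|ω|^(2J)` -/
def kapJ (u w : R3) (J : ℕ) : ℝ :=
  (∫ e : sphere (0 : R3) 1, ‖om u w e‖ ^ (2 * J) ∂((volume : Measure R3).toSphere)) / (4 * π)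

theorem integral_om_rad (u w : R3) (J : ℕ) (U : ℝ → ℝ) :
    ∫ x : R3, U ‖x‖ * ‖om u w x‖ ^ (2 * J) = kapJ u w J * ∫ x : R3, U ‖x‖ * ‖x‖ ^ (2 * J) := by
  have h1 := polar_sep (fun x => U ‖x‖ * ‖om u w x‖ ^ (2 * J))
    (fun e => ‖om u w e‖ ^ (2 * J)) (fun r => U r * r ^ (2 * J)) (by
      intro e r hr
      have he : ‖(e : R3)‖ = 1 := mem_sphere_zero_iff_norm.1 e.2
      rw [om_smul, norm_smul, norm_mul, he, Complex.norm_real, Real.norm_eq_abs, abs_of_pos hr,
        mul_one, mul_pow]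
      ring)
  have h2 := integral_rad (fun r => U r * r ^ (2 * J))
  rw [h1, h2, kapJ]
  have hpi : (4 * π) ≠ 0 := by positivity
  field_simp

theorem om_norm_le (u w x : R3) : ‖om u w x‖ ≤ (‖u‖ + ‖w‖) * ‖x‖ := by
  rw [om_eq]
  refine (norm_add_le _ _).trans ?_
  rw [norm_mul, Complex.norm_I, mul_one, Complex.norm_real, Complex.norm_real, add_mul]
  exact add_le_add (norm_inner_le_norm u x) (norm_inner_le_norm w x)

theorem continuous_om (u w : R3) : Continuous (om u w) := by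
  have : om u w = fun x => ((inner ℝ u x : ℝ) : ℂ) + ((inner ℝ w x : ℝ) : ℂ) * Complex.I := by
    ext x; exact om_eq u w x
  rw [this]
  fun_prop

theorem continuous_QJ (J : ℕ) : Continuous (fun p : ℝ × ℝ => QJ J p.1 p.2) := by
  unfold QJ
  fun_prop

theorem QJ_bound (J : ℕ) {q p : ℝ} (h : |q| ≤ p) : |QJ J q p| ≤ ((2 : ℝ) ^ J) ^ 2 * p ^ J := by
  have hp : 0 ≤ p := (abs_nonneg q).trans h
  have hq := abs_le.1 h
  have h1 : |(q + p) / 2| ≤ p := by rw [abs_le]; constructor <;> linarith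
  have h2 : |(q - p) / 2| ≤ p := by rw [abs_le]; constructor <;> linarith
  unfold QJ
  refine (abs_sum_le_sum_abs _ _).trans ?_
  calc ∑ k ∈ range (J + 1), |(J.choose k : ℝ) ^ 2 * (((q + p) / 2) ^ (J - k) * ((q - p) / 2) ^ k)|
      ≤ ∑ k ∈ range (J + 1), (J.choose k : ℝ) ^ 2 * p ^ J := by
        refine sum_le_sum fun k hk => ?_
        have hk' : k ≤ J := by simp at hk; omega
        rw [abs_mul, abs_mul, abs_pow, abs_pow, abs_pow, Nat.abs_cast]
        refine mul_le_mul_of_nonneg_left ?_ (by positivity)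
        calc |(q + p) / 2| ^ (J - k) * |(q - p) / 2| ^ k ≤ p ^ (J - k) * p ^ k := by gcongr
          _ = p ^ J := by rw [← pow_add, Nat.sub_add_cancel hk']
    _ = (∑ k ∈ range (J + 1), (J.choose k : ℝ) ^ 2) * p ^ J := by rw [sum_mul]
    _ ≤ ((2 : ℝ) ^ J) ^ 2 * p ^ J := by
        refine mul_le_mul_of_nonneg_right ?_ (by positivity)
        have h3 : (∑ k ∈ range (J + 1), (J.choose k : ℝ)) = 2 ^ J := by
          have := Nat.sum_range_choose J
          exact_mod_cast this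
        rw [← h3]
        exact sum_sq_le_sq_sum_of_nonneg fun k _ => by positivity

/-- an isometry mapping `y` to `y'` when the norms agree -/
theorem exists_isom {y y' : R3} (h : ‖y‖ = ‖y'‖) : ∃ A : R3 ≃ₗᵢ[ℝ] R3, A y = y' := by
  by_cases hy : y = 0
  · refine ⟨LinearIsometryEquiv.refl ℝ R3, ?_⟩
    have : y' = 0 := by rw [← norm_eq_zero, ← h, hy, norm_zero]
    rw [hy, this]; rfl
  have hy1 : ‖y‖ ≠ 0 := norm_ne_zero_iff.2 hy
  have hy2 : ‖y'‖ ≠ 0 := h ▸ hy1
  obtain ⟨b, hb⟩ := exists_basis3 (e := (‖y‖)⁻¹ • y) (by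
    rw [norm_smul, norm_inv, norm_norm, inv_mul_cancel₀ hy1])
  obtain ⟨c, hc⟩ := exists_basis3 (e := (‖y'‖)⁻¹ • y') (by
    rw [norm_smul, norm_inv, norm_norm, inv_mul_cancel₀ hy2])
  refine ⟨b.repr.trans c.repr.symm, ?_⟩
  have h1 : y = ‖y‖ • b 2 := by rw [hb, smul_smul, mul_inv_cancel₀ hy1, one_smul]
  have h2 : y' = ‖y'‖ • c 2 := by rw [hc, smul_smul, mul_inv_cancel₀ hy2, one_smul]
  conv_lhs => rw [h1]
  rw [map_smul, LinearIsometryEquiv.trans_apply, b.repr_self, c.repr_symm_single, h]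
  exact h2.symm

/-- rotation invariance of a kernel -/
def KInv (k : R3 → R3 → ℝ) : Prop := ∀ x y x' y' : R3, ‖x‖ = ‖x'‖ → ‖y‖ = ‖y'‖ →
  inner ℝ x y = inner ℝ x' y' → k x y = k x' y'

/-- the angular projection of the kernel on degree `J`, integrated in the second variable -/
def kM (k : R3 → R3 → ℝ) (J : ℕ) (x : R3) : ℝ := ∫ y, k x y * QJ J (inner ℝ x y) (‖x‖ * ‖y‖)

theorem kM_isom {k : R3 → R3 → ℝ} (hinv : KInv k) (J : ℕ) (A : R3 ≃ₗᵢ[ℝ] R3) (x : R3) :
    kM k J (A x) = kM k J x := by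
  unfold kM
  have h := rcomp ℝ A (fun y => k (A x) y * QJ J (inner ℝ (A x) y) (‖A x‖ * ‖y‖))
  rw [← h]
  congr 1
  ext y
  rw [hinv (A x) (A y) x y (A.norm_map x) (A.norm_map y) (A.inner_map_map x y), A.inner_map_map,
    A.norm_map, A.norm_map]

theorem kM_rad {k : R3 → R3 → ℝ} (hinv : KInv k) (J : ℕ) {x x' : R3} (h : ‖x‖ = ‖x'‖) :
    kM k J x = kM k J x' := by
  obtain ⟨A, hA⟩ := exists_isom h
  rw [← hA, kM_isom hinv]

/-- the integrability hypothesis on the kernel -/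
def KInt (k : R3 → R3 → ℝ) (J : ℕ) : Prop :=
  Measurable (fun p : R3 × R3 => k p.1 p.2) ∧
  Integrable (fun p : R3 × R3 => k p.1 p.2 * (‖p.1‖ ^ J * ‖p.2‖ ^ J)) (volume.prod volume)

theorem KInt.dom {k : R3 → R3 → ℝ} {J : ℕ} (hk : KInt k J) {g : R3 × R3 → ℝ} (hg : Measurable g)
    (C : ℝ) (hC : ∀ p, |g p| ≤ C * (‖p.1‖ ^ J * ‖p.2‖ ^ J)) :
    Integrable (fun p : R3 × R3 => k p.1 p.2 * g p) (volume.prod volume) := by
  refine (hk.2.const_mul C).mono (hk.1.mul hg).aestronglyMeasurable (ae_of_all _ fun p => ?_)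
  rw [norm_mul, norm_mul, norm_mul, Real.norm_eq_abs, Real.norm_eq_abs, Real.norm_eq_abs,
    Real.norm_eq_abs, abs_of_nonneg (by positivity : 0 ≤ ‖p.1‖ ^ J * ‖p.2‖ ^ J)]
  calc |k p.1 p.2| * |g p| ≤ |k p.1 p.2| * (C * (‖p.1‖ ^ J * ‖p.2‖ ^ J)) := by gcongr; exact hC p
    _ ≤ |k p.1 p.2| * (|C| * (‖p.1‖ ^ J * ‖p.2‖ ^ J)) := by gcongr; exact le_abs_self C
    _ = |C| * (|k p.1 p.2| * (‖p.1‖ ^ J * ‖p.2‖ ^ J)) := by ring

theorem KInt.qj {k : R3 → R3 → ℝ} {J : ℕ} (hk : KInt k J) :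
    Integrable (fun p : R3 × R3 => k p.1 p.2 * QJ J (inner ℝ p.1 p.2) (‖p.1‖ * ‖p.2‖))
      (volume.prod volume) := by
  refine hk.dom (g := fun p => QJ J (inner ℝ p.1 p.2) (‖p.1‖ * ‖p.2‖)) ?_ (((2 : ℝ) ^ J) ^ 2) ?_
  · exact ((continuous_QJ J).comp
      (f := fun p : R3 × R3 => ((inner ℝ p.1 p.2 : ℝ), ‖p.1‖ * ‖p.2‖)) (by fun_prop)).measurable
  · intro p
    rw [← mul_pow]
    exact QJ_bound J (abs_real_inner_le_norm p.1 p.2)

theorem KInt.ae {k : R3 → R3 → ℝ} {J : ℕ} (hk : KInt k J) (u w : R3) :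
    ∀ᵐ x : R3, x ≠ 0 ∧ Integrable (fun y => ((k x y : ℝ) : ℂ) * om u w y ^ J) := by
  have h1 := hk.2.prod_right_ae
  have h2 : ∀ᵐ x : R3, x ≠ 0 := by
    rw [ae_iff]
    simp
  filter_upwards [h1, h2] with x hx hx0
  refine ⟨hx0, ?_⟩
  have hm : Measurable (fun y => k x y) := hk.1.comp (by fun_prop : Measurable fun y => (x, y))
  have hn : 0 < ‖x‖ := norm_pos_iff.2 hx0
  refine (hx.const_mul ((‖u‖ + ‖w‖) ^ J / ‖x‖ ^ J)).mono ?_ (ae_of_all _ fun y => ?_)
  · exact ((Complex.measurable_ofReal.comp hm).mul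
      ((continuous_om u w).pow J).measurable).aestronglyMeasurable
  · rw [norm_mul, norm_pow, Complex.norm_real, norm_mul, norm_mul, Real.norm_eq_abs,
      Real.norm_eq_abs, Real.norm_eq_abs, abs_of_nonneg (by positivity : 0 ≤ ‖x‖ ^ J * ‖y‖ ^ J),
      abs_of_nonneg (by positivity : 0 ≤ (‖u‖ + ‖w‖) ^ J / ‖x‖ ^ J)]
    calc |k x y| * ‖om u w y‖ ^ J ≤ |k x y| * ((‖u‖ + ‖w‖) * ‖y‖) ^ J := by
          gcongr; exact om_norm_le u w y
      _ = _ := by rw [mul_pow]; field_simp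

/-- the inner integral -/
theorem inner_exch {u w : R3} (h1 : inner ℝ u w = 0) (h2 : ‖u‖ = ‖w‖) {k : R3 → R3 → ℝ} {J : ℕ}
    (hinv : KInv k) {x : R3} (hx0 : x ≠ 0)
    (hx : Integrable (fun y => ((k x y : ℝ) : ℂ) * om u w y ^ J)) :
    (∫ y, k x y * (om u w y ^ J).re = (om u w x ^ J).re * kM k J x / ‖x‖ ^ (2 * J)) ∧
    (∫ y, k x y * (om u w y ^ J).im = (om u w x ^ J).im * kM k J x / ‖x‖ ^ (2 * J)) := by
  have h3 := hecke h1 h2 J x (fun y => k x y) hx (by
    intro y y' hy hyy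
    exact hinv x y x y' rfl hy (by rw [real_inner_comm, hyy, real_inner_comm]))
  have h4 : ∫ y, k x y * QJ J (inner ℝ y x) (‖y‖ * ‖x‖) = kM k J x := by
    unfold kM
    congr 1
    ext y
    rw [real_inner_comm, mul_comm ‖y‖]
  rw [h4] at h3
  have hn : ‖x‖ ≠ 0 := norm_ne_zero_iff.2 hx0
  have h5 : (‖x‖ : ℝ) ^ (2 * J) ≠ 0 := pow_ne_zero _ hn
  have hre : (∫ y, ((k x y : ℝ) : ℂ) * om u w y ^ J).re = ∫ y, k x y * (om u w y ^ J).re := by
    rw [← RCLike.re_eq_complex_re, ← integral_re hx]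
    congr 1
    ext y
    simp
  have him : (∫ y, ((k x y : ℝ) : ℂ) * om u w y ^ J).im = ∫ y, k x y * (om u w y ^ J).im := by
    rw [← RCLike.im_eq_complex_im, ← integral_im hx]
    congr 1
    ext y
    simp
  rw [← Complex.ofReal_pow] at h3
  constructor
  · rw [← hre, eq_div_iff h5]
    have := congrArg Complex.re h3
    rw [Complex.re_ofReal_mul, Complex.re_mul_ofReal] at this
    linarith
  · rw [← him, eq_div_iff h5]
    have := congrArg Complex.im h3
    rw [Complex.im_ofReal_mul, Complex.im_mul_ofReal] at this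
    linarith

/-- **Exchange integrals of the top circular orbitals.** -/
theorem exch {u w : R3} (h1 : inner ℝ u w = 0) (h2 : ‖u‖ = ‖w‖) {k : R3 → R3 → ℝ} {J : ℕ}
    (hk : KInt k J) (hinv : KInv k) :
    (∫ x, ∫ y, k x y * ((om u w x ^ J).re * (om u w y ^ J).re)) +
      (∫ x, ∫ y, k x y * ((om u w x ^ J).im * (om u w y ^ J).im)) =
    kapJ u w J * ∫ x, ∫ y, k x y * QJ J (inner ℝ x y) (‖x‖ * ‖y‖) := by
  have hae := hk.ae u w
  have hre : ∫ x, ∫ y, k x y * ((om u w x ^ J).re * (om u w y ^ J).re) =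
      ∫ x, (om u w x ^ J).re ^ 2 / ‖x‖ ^ (2 * J) * kM k J x := by
    refine integral_congr_ae ?_
    filter_upwards [hae] with x hx
    have := (inner_exch h1 h2 hinv hx.1 hx.2).1
    calc ∫ y, k x y * ((om u w x ^ J).re * (om u w y ^ J).re)
        = (om u w x ^ J).re * ∫ y, k x y * (om u w y ^ J).re := by
          rw [← integral_const_mul]; congr 1; ext y; ring
      _ = _ := by rw [this]; ring
  have him : ∫ x, ∫ y, k x y * ((om u w x ^ J).im * (om u w y ^ J).im) =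
      ∫ x, (om u w x ^ J).im ^ 2 / ‖x‖ ^ (2 * J) * kM k J x := by
    refine integral_congr_ae ?_
    filter_upwards [hae] with x hx
    have := (inner_exch h1 h2 hinv hx.1 hx.2).2
    calc ∫ y, k x y * ((om u w x ^ J).im * (om u w y ^ J).im)
        = (om u w x ^ J).im * ∫ y, k x y * (om u w y ^ J).im := by
          rw [← integral_const_mul]; congr 1; ext y; ring
      _ = _ := by rw [this]; ring
  have hM : Integrable (fun x => kM k J x) := by
    have := hk.qj.integral_prod_left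
    exact this
  have hbd : ∀ x : R3, ‖om u w x ^ J‖ ^ 2 / ‖x‖ ^ (2 * J) ≤ ((‖u‖ + ‖w‖) ^ J) ^ 2 := by
    intro x
    by_cases hx : x = 0
    · subst hx
      rcases Nat.eq_zero_or_pos J with hJ | hJ
      · subst hJ; simp
      · have : om u w 0 = 0 := by apply Complex.ext <;> simp [om]
        rw [this, zero_pow hJ.ne']
        simp
        positivity
    · have hn : 0 < ‖x‖ := norm_pos_iff.2 hx
      rw [div_le_iff₀ (by positivity), norm_pow, ← pow_mul, ← pow_mul]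
      calc ‖om u w x‖ ^ (J * 2) ≤ ((‖u‖ + ‖w‖) * ‖x‖) ^ (J * 2) := by
            gcongr; exact om_norm_le u w x
        _ = _ := by rw [mul_pow, mul_comm J 2]
  have hmre : Measurable (fun x => (om u w x ^ J).re ^ 2 / ‖x‖ ^ (2 * J)) := by
    have := ((continuous_om u w).pow J).measurable
    exact ((Complex.measurable_re.comp this).pow_const 2).div (by fun_prop)
  have hmim : Measurable (fun x => (om u w x ^ J).im ^ 2 / ‖x‖ ^ (2 * J)) := by
    have := ((continuous_om u w).pow J).measurable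
    exact ((Complex.measurable_im.comp this).pow_const 2).div (by fun_prop)
  have hIre : Integrable (fun x => (om u w x ^ J).re ^ 2 / ‖x‖ ^ (2 * J) * kM k J x) := by
    refine hM.bdd_mul hmre.aestronglyMeasurable (c := ((‖u‖ + ‖w‖) ^ J) ^ 2) (ae_of_all _ fun x => ?_)
    rw [Real.norm_eq_abs, abs_of_nonneg (by positivity)]
    refine le_trans ?_ (hbd x)
    gcongr ?_ / _
    rw [← sq_abs]
    gcongr
    exact Complex.abs_re_le_norm _
  have hIim : Integrable (fun x => (om u w x ^ J).im ^ 2 / ‖x‖ ^ (2 * J) * kM k J x) := by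
    refine hM.bdd_mul hmim.aestronglyMeasurable (c := ((‖u‖ + ‖w‖) ^ J) ^ 2) (ae_of_all _ fun x => ?_)
    rw [Real.norm_eq_abs, abs_of_nonneg (by positivity)]
    refine le_trans ?_ (hbd x)
    gcongr ?_ / _
    rw [← sq_abs]
    gcongr
    exact Complex.abs_im_le_norm _
  rw [hre, him, ← integral_add hIre hIim]
  obtain ⟨e, he⟩ : ∃ e : R3, ‖e‖ = 1 := ⟨EuclideanSpace.single 0 1, by simp⟩
  set m : ℝ → ℝ := fun r => kM k J (r • e) with hm
  have hmr : ∀ x : R3, kM k J x = m ‖x‖ := by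
    intro x
    apply kM_rad hinv
    rw [norm_smul, he, norm_norm, mul_one]
  have h6 := integral_om_rad u w J (fun r => m r / r ^ (2 * J))
  have h7 : ∀ x, (om u w x ^ J).re ^ 2 / ‖x‖ ^ (2 * J) * kM k J x +
      (om u w x ^ J).im ^ 2 / ‖x‖ ^ (2 * J) * kM k J x =
      m ‖x‖ / ‖x‖ ^ (2 * J) * ‖om u w x‖ ^ (2 * J) := by
    intro x
    have h8 : (om u w x ^ J).re ^ 2 + (om u w x ^ J).im ^ 2 = ‖om u w x‖ ^ (2 * J) := by
      have := Complex.sq_norm (om u w x ^ J)
      rw [Complex.normSq_apply, norm_pow, ← pow_mul, mul_comm J 2] at this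
      rw [this]; ring
    rw [← h8, hmr]
    ring
  rw [integral_congr_ae (ae_of_all _ h7), h6]
  congr 1
  have h9 : ∀ᵐ x : R3, x ≠ 0 := by
    rw [ae_iff]
    simp
  refine integral_congr_ae ?_
  filter_upwards [h9] with x hx
  have hn : ‖x‖ ≠ 0 := norm_ne_zero_iff.2 hx
  rw [div_mul_cancel₀ _ (pow_ne_zero _ hn), ← hmr]
  rfl

end

end Vale.Agent.P370.H374
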