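import Vale.Agent.P370.H374.Core

/-! The exchange part of the core mean field on the top circular orbitals as a finite sum. -/

namespace Vale.Agent.P370.H374

open MeasureTheory Set Real Finset
open Vale.Agent.P363.H849 (R3 integral_rad integrable_rad integrableOn_pow_exp integral_pow_exp)
open Vale.Agent.P370.H32 (Reg tri wt measurableSet_Reg measurable_tri measurable_wt wt_nonneg
  integrable_tri integral_tri aR KK Ssym hsym uu vv A0 aQ A0_pos)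
open scoped Nat

noncomputable section

/-- the exchange kernel of shell `j` against the shell `n` orbitals -/
def kE (n j : ℕ) (x y : R3) : ℝ := KK j x y * exp (-((‖x‖ + ‖y‖) / n)) / ‖x - y‖

/-- the kernel `kE` in triangle coordinates -/
def kT (n j : ℕ) (z : ℝ × ℝ × ℝ) : ℝ := Kt j z * exp (-(z.1 / n)) / z.2.1

theorem kE_tri (n j : ℕ) (p : R3 × R3) : kE n j p.1 p.2 = kT n j (tri p) := by
  unfold kE kT
  rw [KK_tri]
  rfl

theorem measurable_kT (n j : ℕ) : Measurable (kT n j) := by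
  unfold kT
  exact ((measurable_Kt j).mul (by fun_prop)).div (by fun_prop)

theorem norm_sub_sq' (x y : R3) : ‖x - y‖ ^ 2 = ‖x‖ ^ 2 + ‖y‖ ^ 2 - 2 * inner ℝ x y := by
  rw [norm_sub_sq_real]; ring

theorem kE_inv (n j : ℕ) : KInv (kE n j) := by
  intro x y x' y' h1 h2 h3
  have h4 : ‖x - y‖ = ‖x' - y'‖ := by
    have : ‖x - y‖ ^ 2 = ‖x' - y'‖ ^ 2 := by rw [norm_sub_sq', norm_sub_sq', h1, h2, h3]
    exact (sq_eq_sq₀ (norm_nonneg _) (norm_nonneg _)).1 this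
  unfold kE KK uu vv
  rw [h1, h2, h4]

/-- a bound for `S_n` on the region -/
theorem Ssym_le (n : ℕ) : ∃ C : ℝ, 0 ≤ C ∧ ∀ z ∈ Reg,
    |Ssym n (z.1 + z.2.1) (z.1 - z.2.1)| ≤ C * (1 + z.1) ^ (2 * n) := by
  refine ⟨∑ j ∈ range (n + 1), ∑ i ∈ range j, ∑ l ∈ range (n + 1), |cS n j i l|,
    sum_nonneg fun _ _ => sum_nonneg fun _ _ => sum_nonneg fun _ _ => abs_nonneg _, fun z hz => ?_⟩
  obtain ⟨h2, h3, h4⟩ := Reg_pos hz
  have h5 := hz.2
  rw [Ssym_sigma n z.1 h2.ne', sum_mul]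
  refine (abs_sum_le_sum_abs _ _).trans (sum_le_sum fun j hj => ?_)
  rw [sum_mul]
  refine (abs_sum_le_sum_abs _ _).trans (sum_le_sum fun i hi => ?_)
  rw [sum_mul]
  refine (abs_sum_le_sum_abs _ _).trans (sum_le_sum fun l hl => ?_)
  have hj' : j ≤ n := by simp at hj; omega
  have hi' : i < j := by simpa using hi
  rw [abs_mul]
  by_cases hl2 : 2 * l + 1 ≤ j - i
  · refine mul_le_mul_of_nonneg_left ?_ (abs_nonneg _)
    have e1 : 0 ≤ z.1 ^ 2 - z.2.1 ^ 2 := by nlinarith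
    have f1 : z.1 ^ 2 - z.2.1 ^ 2 ≤ (1 + z.1) ^ 2 := by nlinarith
    rw [abs_of_nonneg (by positivity)]
    calc (z.1 ^ 2 - z.2.1 ^ 2) ^ i * z.1 ^ (j - i - 1 - 2 * l) * z.2.1 ^ (2 * l)
        ≤ ((1 + z.1) ^ 2) ^ i * (1 + z.1) ^ (j - i - 1 - 2 * l) * (1 + z.1) ^ (2 * l) := by
          gcongr <;> linarith
      _ = (1 + z.1) ^ (2 * i + (j - i - 1 - 2 * l) + 2 * l) := by
          rw [← pow_mul, ← pow_add, ← pow_add]
      _ ≤ (1 + z.1) ^ (2 * n) := pow_le_pow_right₀ (by linarith) (by omega)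
  · have : cS n j i l = 0 := by
      unfold cS
      rw [Nat.choose_eq_zero_of_lt (by omega)]
      simp
    rw [this]
    simp

theorem kE_int {n j : ℕ} (hn : 0 < n) (hj : 0 < j) (J : ℕ) : KInt (kE n j) J := by
  have e : (fun p : R3 × R3 => kE n j p.1 p.2) = fun p => kT n j (tri p) := by
    funext p; exact kE_tri n j p
  have hme : Measurable (fun p : R3 × R3 => kE n j p.1 p.2) := by
    rw [e]; exact (measurable_kT n j).comp measurable_tri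
  refine ⟨hme, ?_⟩
  have e2 : (fun p : R3 × R3 => kE n j p.1 p.2 * (‖p.1‖ ^ J * ‖p.2‖ ^ J)) =
      fun p => (fun z : ℝ × ℝ × ℝ => kT n j z *
        (((z.1 + z.2.2) / 2) ^ J * ((z.1 - z.2.2) / 2) ^ J)) (tri p) := by
    funext p
    simp only [kE_tri]
    unfold tri
    simp only
    congr 2
    · congr 1; ring
    · congr 1; ring
  have hm : Measurable (fun z : ℝ × ℝ × ℝ => kT n j z *
        (((z.1 + z.2.2) / 2) ^ J * ((z.1 - z.2.2) / 2) ^ J)) :=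
    (measurable_kT n j).mul (by fun_prop)
  have hgoal : Integrable (fun p : R3 × R3 => kE n j p.1 p.2 * (‖p.1‖ ^ J * ‖p.2‖ ^ J)) volume := by
    rw [e2]
    refine (integrable_tri hm).2 ?_
    obtain ⟨C, hC, hb⟩ := Ssym_le j
    have hc : (0 : ℝ) < 1 / j + 1 / n := by positivity
    refine reg_int (measurable_wt.mul hm) hc (2 * j + 2 + 2 * J)
      (π ^ 2 * (2 / (π * A0 j)) * C) fun z hz => ?_
    obtain ⟨h2, h3, h4⟩ := Reg_pos hz
    have h5 := hz.2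
    have hA := A0_pos hj
    have h6 := hb z hz
    have habs := abs_lt.1 h4
    have hexp : exp (-(z.1 / j)) * exp (-(z.1 / n)) = exp (-(1 / j + 1 / n) * z.1) := by
      rw [← Real.exp_add]; congr 1; ring
    have h7 : wt z * (kT n j z * (((z.1 + z.2.2) / 2) ^ J * ((z.1 - z.2.2) / 2) ^ J)) =
        (π ^ 2 * (2 / (π * A0 j)) * Ssym j (z.1 + z.2.1) (z.1 - z.2.1)) *
        ((z.1 ^ 2 - z.2.2 ^ 2) * (((z.1 + z.2.2) / 2) ^ J * ((z.1 - z.2.2) / 2) ^ J) *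
        exp (-(1 / j + 1 / n) * z.1)) := by
      rw [← hexp]
      unfold wt kT Kt
      have hs := h2.ne'
      field_simp
    rw [h7, abs_mul, abs_mul, abs_of_nonneg (by positivity : 0 ≤ π ^ 2 * (2 / (π * A0 j)))]
    have e3 : 0 ≤ z.1 ^ 2 - z.2.2 ^ 2 := by nlinarith
    have f3 : z.1 ^ 2 - z.2.2 ^ 2 ≤ (1 + z.1) ^ 2 := by nlinarith
    have g1 : 0 ≤ (z.1 + z.2.2) / 2 := by linarith
    have g2 : 0 ≤ (z.1 - z.2.2) / 2 := by linarith
    have g3 : (z.1 + z.2.2) / 2 ≤ 1 + z.1 := by linarith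
    have g4 : (z.1 - z.2.2) / 2 ≤ 1 + z.1 := by linarith
    rw [abs_of_nonneg (by positivity : 0 ≤ (z.1 ^ 2 - z.2.2 ^ 2) * (((z.1 + z.2.2) / 2) ^ J *
      ((z.1 - z.2.2) / 2) ^ J) * exp (-(1 / j + 1 / n) * z.1))]
    calc π ^ 2 * (2 / (π * A0 j)) * |Ssym j (z.1 + z.2.1) (z.1 - z.2.1)| *
        ((z.1 ^ 2 - z.2.2 ^ 2) * (((z.1 + z.2.2) / 2) ^ J * ((z.1 - z.2.2) / 2) ^ J) *
          exp (-(1 / j + 1 / n) * z.1))
        ≤ π ^ 2 * (2 / (π * A0 j)) * (C * (1 + z.1) ^ (2 * j)) *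
        ((1 + z.1) ^ 2 * ((1 + z.1) ^ J * (1 + z.1) ^ J) * exp (-(1 / j + 1 / n) * z.1)) := by
          gcongr
      _ = _ := by ring
  rw [← Measure.volume_eq_prod]
  exact hgoal

/-- the exchange integral of the closed shell `j` with the top circular orbitals of shell `n`
(`J = n - 1`) -/
def Ev (n J j : ℕ) : ℝ :=
  2 * π / A0 j * (1 / 4) ^ J * ∑ j₁ ∈ range (j + 1), ∑ i ∈ range j₁, ∑ l ∈ range (j + 1),
    ∑ k ∈ range (J + 1), cS j j₁ i l * ((J.choose k : ℝ) ^ 2 * (-1) ^ k) *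
      Iv (1 / j + 1 / n) (j₁ - i - 1 - 2 * l) (i + (J - k)) l k

theorem QJ_tri (J : ℕ) (x y : R3) : QJ J (inner ℝ x y) (‖x‖ * ‖y‖) =
    (1 / 4) ^ J * ∑ k ∈ range (J + 1), (J.choose k : ℝ) ^ 2 * (-1) ^ k *
      (((tri (x, y)).1 ^ 2 - (tri (x, y)).2.1 ^ 2) ^ (J - k) *
        ((tri (x, y)).2.1 ^ 2 - (tri (x, y)).2.2 ^ 2) ^ k) := by
  unfold QJ
  rw [mul_sum]
  refine sum_congr rfl fun k hk => ?_
  have hk' : k ≤ J := by simp at hk; omega
  have h1 := norm_sub_sq' x y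
  have h2 : (inner ℝ x y + ‖x‖ * ‖y‖) / 2 = (1 / 4) *
      ((tri (x, y)).1 ^ 2 - (tri (x, y)).2.1 ^ 2) := by
    unfold tri; simp only; rw [h1]; ring
  have h3 : (inner ℝ x y - ‖x‖ * ‖y‖) / 2 = (1 / 4) * (-1) *
      ((tri (x, y)).2.1 ^ 2 - (tri (x, y)).2.2 ^ 2) := by
    unfold tri; simp only; rw [h1]; ring
  rw [h2, h3, mul_pow, mul_pow, mul_pow]
  have h4 : ((1 : ℝ) / 4) ^ J = (1 / 4) ^ (J - k) * (1 / 4) ^ k := by
    rw [← pow_add, Nat.sub_add_cancel hk']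
  rw [h4]
  ring

theorem E_HasI {n j : ℕ} (hn : 0 < n) (hj : 0 < j) (J : ℕ) :
    HasI (fun z => wt z * (kT n j z * ((1 / 4) ^ J * ∑ k ∈ range (J + 1),
      (J.choose k : ℝ) ^ 2 * (-1) ^ k * ((z.1 ^ 2 - z.2.1 ^ 2) ^ (J - k) *
        (z.2.1 ^ 2 - z.2.2 ^ 2) ^ k)))) (Ev n J j) := by
  have hc : (0 : ℝ) < 1 / j + 1 / n := by positivity
  unfold Ev
  have h1 : HasI (fun z => ∑ j₁ ∈ range (j + 1), ∑ i ∈ range j₁, ∑ l ∈ range (j + 1),
    ∑ k ∈ range (J + 1), cS j j₁ i l * ((J.choose k : ℝ) ^ 2 * (-1) ^ k) *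
      Tf (1 / j + 1 / n) (j₁ - i - 1 - 2 * l) (i + (J - k)) l k z)
      (∑ j₁ ∈ range (j + 1), ∑ i ∈ range j₁, ∑ l ∈ range (j + 1),
    ∑ k ∈ range (J + 1), cS j j₁ i l * ((J.choose k : ℝ) ^ 2 * (-1) ^ k) *
      Iv (1 / j + 1 / n) (j₁ - i - 1 - 2 * l) (i + (J - k)) l k) :=
    HasI.sum _ fun j' _ => HasI.sum _ fun i _ => HasI.sum _ fun l _ => HasI.sum _ fun k _ =>
      (hasI_Tf hc _ _ _ _).const_mul _
  refine (h1.const_mul (2 * π / A0 j * (1 / 4) ^ J)).congr fun z hz => ?_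
  obtain ⟨h2, h3, h4⟩ := Reg_pos hz
  have hs : z.2.1 ≠ 0 := h2.ne'
  unfold wt kT Kt
  rw [Ssym_sigma j z.1 hs]
  have hA := (A0_pos hj).ne'
  have hpi := Real.pi_ne_zero
  have hexp : exp (-(z.1 / j)) * exp (-(z.1 / n)) = exp (-(1 / j + 1 / n) * z.1) := by
    rw [← Real.exp_add]; congr 1; ring
  have h5 : ∀ S₁ S₂ : ℝ, π ^ 2 * z.2.1 * (z.1 ^ 2 - z.2.2 ^ 2) *
      (2 / (π * A0 j) * S₁ * exp (-(z.1 / j)) * exp (-(z.1 / n)) / z.2.1 * ((1 / 4) ^ J * S₂)) =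
      2 * π / A0 j * (1 / 4) ^ J * (S₁ * S₂ *
      ((exp (-(z.1 / j)) * exp (-(z.1 / n))) * (z.1 ^ 2 - z.2.2 ^ 2))) := by
    intro S₁ S₂
    field_simp
  rw [h5, hexp]
  congr 1
  simp only [sum_mul]
  refine sum_congr rfl fun j' _ => sum_congr rfl fun i _ => sum_congr rfl fun l _ => ?_
  simp only [mul_sum, sum_mul]
  refine sum_congr rfl fun k _ => ?_
  unfold Tf
  rw [pow_add]
  ring

/-- the double integral of the exchange kernel with the Legendre kernel -/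
theorem E_eq {n j : ℕ} (hn : 0 < n) (hj : 0 < j) (J : ℕ) :
    ∫ x, ∫ y, kE n j x y * QJ J (inner ℝ x y) (‖x‖ * ‖y‖) = Ev n J j := by
  have h0 := (kE_int hn hj J).qj
  have h1 : ∫ x, ∫ y, kE n j x y * QJ J (inner ℝ x y) (‖x‖ * ‖y‖) =
      ∫ p : R3 × R3, kE n j p.1 p.2 * QJ J (inner ℝ p.1 p.2) (‖p.1‖ * ‖p.2‖) := by
    rw [Measure.volume_eq_prod, integral_prod _ h0]
  rw [h1]
  have hm : Measurable (fun z : ℝ × ℝ × ℝ => kT n j z * ((1 / 4) ^ J * ∑ k ∈ range (J + 1),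
      (J.choose k : ℝ) ^ 2 * (-1) ^ k * ((z.1 ^ 2 - z.2.1 ^ 2) ^ (J - k) *
        (z.2.1 ^ 2 - z.2.2 ^ 2) ^ k))) :=
    (measurable_kT n j).mul (by fun_prop)
  have h2 := (integral_tri hm).trans (E_HasI hn hj J).2
  rw [← h2]
  congr 1
  funext p
  rw [kE_tri, QJ_tri]

/-- **The exchange integrals of the top circular orbitals with a closed shell.** -/
theorem E_ring {u w : R3} (h1 : inner ℝ u w = 0) (h2 : ‖u‖ = ‖w‖) {n j : ℕ} (hn : 0 < n)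
    (hj : 0 < j) (J : ℕ) :
    (∫ x, ∫ y, kE n j x y * ((om u w x ^ J).re * (om u w y ^ J).re)) +
      (∫ x, ∫ y, kE n j x y * ((om u w x ^ J).im * (om u w y ^ J).im)) =
    kapJ u w J * Ev n J j := by
  rw [exch h1 h2 (kE_int hn hj J) (kE_inv n j), E_eq hn hj]

end

end Vale.Agent.P370.H374
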