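import Vale.Agent.P370.H374.Rot

/-! **Funk-Hecke formula for powers of null linear forms.**
For `F` depending only on `‖x‖` and `⟨x,y⟩`:
`‖y‖^(2J) ∫ F ω^J = ω(y)^J ∫ F(x) Q_J(⟨x,y⟩, ‖x‖‖y‖) dx`, `ω = ⟨u,·⟩ + i⟨w,·⟩` null. -/

namespace Vale.Agent.P370.H374

open MeasureTheory Set Real Finset
open Vale.Agent.P363.H849 (R3 integral_rad integrable_rad integrableOn_pow_exp integral_pow_exp)

noncomputable section

/-- `Q_J(q,p) = p^J P_J(q/p)`, `P_J` the Legendre polynomial -/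
def QJ (J : ℕ) (q p : ℝ) : ℝ :=
  ∑ k ∈ range (J + 1), (J.choose k : ℝ) ^ 2 * (((q + p) / 2) ^ (J - k) * ((q - p) / 2) ^ k)

theorem QJ_smul (J : ℕ) (c q p : ℝ) : QJ J (c * q) (c * p) = c ^ J * QJ J q p := by
  unfold QJ
  rw [mul_sum]
  refine sum_congr rfl fun k hk => ?_
  have hk' : k ≤ J := by simp at hk; omega
  have h1 : (c * q + c * p) / 2 = c * ((q + p) / 2) := by ring
  have h2 : (c * q - c * p) / 2 = c * ((q - p) / 2) := by ring
  rw [h1, h2, mul_pow, mul_pow]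
  have h3 : c ^ J = c ^ (J - k) * c ^ k := by rw [← pow_add, Nat.sub_add_cancel hk']
  rw [h3]
  ring

theorem QJ_zero (q p : ℝ) : QJ 0 q p = 1 := by simp [QJ]

/-- An orthonormal basis of `ℝ³` ending with `e`. -/
theorem exists_basis3 {e : R3} (he : ‖e‖ = 1) :
    ∃ b : OrthonormalBasis (Fin 3) ℝ R3, b 2 = e := by
  have h1 : Orthonormal ℝ (({(2 : Fin 3)} : Set (Fin 3)).domRestrict (fun _ : Fin 3 => e)) := by
    constructor
    · intro i; exact he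
    · intro i j hij
      exact absurd (Subsingleton.elim i j) hij
  obtain ⟨b, hb⟩ := h1.exists_orthonormalBasis_extension_of_card_eq (by simp)
  exact ⟨b, hb 2 rfl⟩

/-- the average of `ω(R x)^J` over the rotations about the axis `b 2` by the multiples of
`2π/(J+1)` -/
theorem sum_om_rot {u w : R3} (h1 : inner ℝ u w = 0) (h2 : ‖u‖ = ‖w‖)
    (b : OrthonormalBasis (Fin 3) ℝ R3) (J : ℕ) (x : R3) :
    ∑ m ∈ range (J + 1), om u w (rotB b (2 * π * m / (J + 1 : ℕ)) x) ^ J =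
      ((J + 1 : ℕ) : ℂ) * (om u w (b 2) ^ J * (QJ J (b.repr x 2) ‖x‖ : ℝ)) := by
  have hz := Complex.isPrimitiveRoot_exp (J + 1) (by omega)
  set z : ℂ := Complex.exp (2 * π * Complex.I / (J + 1 : ℕ)) with hzdef
  set A : ℂ := b.repr x 2 * om u w (b 2) with hA
  set B : ℂ := (1 / 2 : ℂ) * ((b.repr x 0 : ℂ) + b.repr x 1 * Complex.I) *
          (om u w (b 0) - Complex.I * om u w (b 1)) with hB
  set C : ℂ := (1 / 2 : ℂ) * ((b.repr x 0 : ℂ) - b.repr x 1 * Complex.I) *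
          (om u w (b 0) + Complex.I * om u w (b 1)) with hC
  have h3 : ∀ m ∈ range (J + 1), om u w (rotB b (2 * π * m / (J + 1 : ℕ)) x) ^ J =
      (A + B * z ^ m + C * (z ^ m)⁻¹) ^ J := by
    intro m _
    rw [om_rotB]
    have h4 : Complex.exp (((2 * π * m / (J + 1 : ℕ) : ℝ) : ℂ) * Complex.I) = z ^ m := by
      rw [hzdef, ← Complex.exp_nat_mul]
      congr 1
      push_cast
      ring
    rw [h4]
  rw [sum_congr rfl h3]
  have hn := om_null h1 h2 b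
  have hI : Complex.I ^ 2 = -1 := Complex.I_sq
  have hnorm : (b.repr x 0) ^ 2 + (b.repr x 1) ^ 2 + (b.repr x 2) ^ 2 = ‖x‖ ^ 2 := by
    rw [← b.repr.norm_map x, EuclideanSpace.norm_eq, Real.sq_sqrt (by positivity),
      Fin.sum_univ_three]
    simp
  have hnormC : ((b.repr x 0 : ℝ) : ℂ) ^ 2 + ((b.repr x 1 : ℝ) : ℂ) ^ 2 +
      ((b.repr x 2 : ℝ) : ℂ) ^ 2 = ((‖x‖ : ℝ) : ℂ) ^ 2 := by
    exact_mod_cast hnorm
  have key := sum_trinomial hz (Nat.lt_succ_self J) (A := A) (B := B) (C := C)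
    (X := om u w (b 2) * (((b.repr x 2 + ‖x‖) / 2 : ℝ) : ℂ))
    (Y := om u w (b 2) * (((b.repr x 2 - ‖x‖) / 2 : ℝ) : ℂ))
    (by rw [hA]; push_cast; ring)
    (by
      rw [hB, hC]
      push_cast
      linear_combination (((b.repr x 0 : ℝ) : ℂ) ^ 2 + ((b.repr x 1 : ℝ) : ℂ) ^ 2) * (-(1 / 4)) * hn
        + (1 / 4) * om u w (b 2) ^ 2 * hnormC
        + (1 / 4) * (((b.repr x 1 : ℝ) : ℂ) ^ 2 * (om u w (b 0) ^ 2 - Complex.I ^ 2 *
            om u w (b 1) ^ 2 + om u w (b 1) ^ 2) +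
            ((b.repr x 0 : ℝ) : ℂ) ^ 2 * om u w (b 1) ^ 2) * hI)
  rw [key]
  congr 1
  unfold QJ
  push_cast
  rw [mul_sum]
  refine sum_congr rfl fun k hk => ?_
  have hk' : k ≤ J := by simp at hk; omega
  rw [mul_pow, mul_pow]
  have h5 : om u w (b 2) ^ J = om u w (b 2) ^ (J - k) * om u w (b 2) ^ k := by
    rw [← pow_add, Nat.sub_add_cancel hk']
  rw [h5]
  ring

/-- **Funk-Hecke for null powers.** -/
theorem hecke {u w : R3} (h1 : inner ℝ u w = 0) (h2 : ‖u‖ = ‖w‖) (J : ℕ) (y : R3) (F : R3 → ℝ)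
    (hF : Integrable (fun x => (F x : ℂ) * om u w x ^ J))
    (hinv : ∀ x x' : R3, ‖x‖ = ‖x'‖ → inner ℝ x y = inner ℝ x' y → F x = F x') :
    ((‖y‖ : ℝ) : ℂ) ^ (2 * J) * ∫ x, (F x : ℂ) * om u w x ^ J =
      om u w y ^ J * ((∫ x, F x * QJ J (inner ℝ x y) (‖x‖ * ‖y‖) : ℝ) : ℂ) := by
  rcases Nat.eq_zero_or_pos J with hJ | hJ
  · subst hJ
    simp only [mul_zero, pow_zero, mul_one, one_mul, QJ_zero]
    exact integral_ofReal
  by_cases hy : y = 0
  · subst hy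
    have h3 : om u w 0 = 0 := by apply Complex.ext <;> simp [om]
    rw [h3, norm_zero, zero_pow hJ.ne']
    simp [hJ.ne']
  have hy' : ‖y‖ ≠ 0 := norm_ne_zero_iff.2 hy
  obtain ⟨b, hb⟩ := exists_basis3 (e := (‖y‖)⁻¹ • y) (by
    rw [norm_smul, norm_inv, norm_norm, inv_mul_cancel₀ hy'])
  have hyb : y = ‖y‖ • b 2 := by rw [hb, smul_smul, mul_inv_cancel₀ hy', one_smul]
  have hcoord : ∀ x, inner ℝ x y = ‖y‖ * b.repr x 2 := by
    intro x
    rw [b.repr_apply_apply]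
    conv_lhs => rw [hyb]
    rw [inner_smul_right, real_inner_comm]
  have hrot : ∀ (θ : ℝ) (x : R3), F (rotB b θ x) = F x := by
    intro θ x
    apply hinv
    · exact (rotB b θ).norm_map x
    · rw [hcoord, hcoord, repr_rotB2]
  have hFθ : ∀ θ : ℝ, Integrable (fun x => (F x : ℂ) * om u w (rotB b θ x) ^ J) := by
    intro θ
    have := (rint (rotB b θ)).2 hF
    simpa only [hrot] using this
  have hIθ : ∀ θ : ℝ, ∫ x, (F x : ℂ) * om u w (rotB b θ x) ^ J = ∫ x, (F x : ℂ) * om u w x ^ J := by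
    intro θ
    have := rcomp ℂ (rotB b θ) (fun x => (F x : ℂ) * om u w x ^ J)
    simpa only [hrot] using this
  have hsum : ((J + 1 : ℕ) : ℂ) * ∫ x, (F x : ℂ) * om u w x ^ J =
      ((J + 1 : ℕ) : ℂ) * ∫ x, (F x : ℂ) * (om u w (b 2) ^ J * (QJ J (b.repr x 2) ‖x‖ : ℝ)) := by
    calc ((J + 1 : ℕ) : ℂ) * ∫ x, (F x : ℂ) * om u w x ^ J
        = ∑ m ∈ range (J + 1), ∫ x, (F x : ℂ) * om u w (rotB b (2 * π * m / (J + 1 : ℕ)) x) ^ J := by
          rw [sum_congr rfl fun m _ => hIθ _]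
          simp
      _ = ∫ x, ∑ m ∈ range (J + 1), (F x : ℂ) * om u w (rotB b (2 * π * m / (J + 1 : ℕ)) x) ^ J := by
          rw [integral_finsetSum]
          intro m _
          exact hFθ _
      _ = ∫ x, ((J + 1 : ℕ) : ℂ) * ((F x : ℂ) * (om u w (b 2) ^ J * (QJ J (b.repr x 2) ‖x‖ : ℝ))) := by
          congr 1
          ext x
          rw [← mul_sum, sum_om_rot h1 h2]
          ring
      _ = _ := by rw [integral_const_mul]
  have hJ1 : ((J + 1 : ℕ) : ℂ) ≠ 0 := by exact_mod_cast Nat.succ_ne_zero J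
  have hI := mul_left_cancel₀ hJ1 hsum
  rw [hI]
  have h4 : ∀ x, (F x : ℂ) * (om u w (b 2) ^ J * (QJ J (b.repr x 2) ‖x‖ : ℝ)) =
      om u w (b 2) ^ J * ((F x * QJ J (b.repr x 2) ‖x‖ : ℝ) : ℂ) := by
    intro x; push_cast; ring
  simp_rw [h4]
  rw [integral_const_mul, integral_complex_ofReal]
  have h5 : ∀ x, F x * QJ J (inner ℝ x y) (‖x‖ * ‖y‖) =
      ‖y‖ ^ J * (F x * QJ J (b.repr x 2) ‖x‖) := by
    intro x
    rw [hcoord, mul_comm ‖x‖, QJ_smul]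
    ring
  simp_rw [h5]
  rw [integral_const_mul]
  have h6 : om u w y = (‖y‖ : ℂ) * om u w (b 2) := by
    conv_lhs => rw [hyb]
    rw [om_smul]
  rw [h6, mul_pow, pow_mul, Complex.ofReal_mul, Complex.ofReal_pow]
  ring

end

end Vale.Agent.P370.H374
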