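import Vale.Agent.P370.H374.Dir
import Vale.Agent.P370.H227.Num

/-! `coreE` and `fE` are polynomial-time approximable. -/

namespace Vale.Agent.P370.H374

open Vale.Agent.Lib.PolyTime Vale.Agent.P370.H855
open Vale.Agent.P370.H32 (aR A0)
open Vale.Agent.P370.H227 (GZ Gn Gc Hd PT_choose PTR_Gn PT_Gc one_le_GZ Gn_zero_eq Gn_zero wM aQ_real)
open scoped Nat
open Finset

noncomputable section

/-- polynomial-time computable and polynomially bounded -/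
def NB {α : Type*} [Enc α] (f : α → ℕ) : Prop := PT ∅ f ∧ PBd f

variable {α : Type*} [Enc α]

theorem NB.fst {f : α → ℕ} (h : NB f) : NB (fun p : α × Un => f p.1) :=
  ⟨h.1.comp PT.fst', h.2.comp (A := ∅) PT.fst'⟩

theorem NB.idx : NB (fun p : α × Un => p.2.v) := ⟨PT_precv, PBd_precv⟩

theorem NB.const (c : ℕ) : NB (fun _ : α => c) := ⟨PT.const c, PBd.const c⟩

theorem NB.add {f g : α → ℕ} (hf : NB f) (hg : NB g) : NB (fun a => f a + g a) :=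
  ⟨hf.1.add hg.1, hf.2.add hg.2⟩

theorem NB.mul {f g : α → ℕ} (hf : NB f) (hg : NB g) : NB (fun a => f a * g a) :=
  ⟨hf.1.mul hg.1, hf.2.mul hg.2⟩

theorem NB.sub {f g : α → ℕ} (hf : NB f) (hg : NB g) : NB (fun a => f a - g a) :=
  ⟨hf.1.sub hg.1, hf.2.mono fun _ => Nat.sub_le _ _⟩

theorem NB.addc {f : α → ℕ} (hf : NB f) (c : ℕ) : NB (fun a => f a + c) := hf.add (NB.const c)

theorem NB.cmul {f : α → ℕ} (hf : NB f) (c : ℕ) : NB (fun a => c * f a) := (NB.const c).mul hf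

theorem PTR_sum {n : α → ℕ} (hn : NB n) {F : α → ℕ → ℝ}
    (h : PTR (fun p : α × Un => F p.1 p.2.v)) : PTR (fun a => ∑ i ∈ range (n a), F a i) :=
  PTR.sumUn hn.1 hn.2 h

theorem PTR_fact {n : α → ℕ} (hn : NB n) : PTR (fun a => ((n a)! : ℝ)) :=
  PTR.ofNat (PT.factorial hn.1 hn.2)

theorem PTR_nat {n : α → ℕ} (hn : NB n) : PTR (fun a => (n a : ℝ)) := PTR.ofNat hn.1

theorem PTR_choose {n i : α → ℕ} (hn : NB n) (hi : NB i) :
    PTR (fun a => ((n a).choose (i a) : ℝ)) := PTR.ofNat (PT_choose hn.1 hn.2 hi.1)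

theorem PTR_inv_nat {n : α → ℕ} (hn : PT ∅ n) : PTR (fun a => 1 / (n a : ℝ)) :=
  (PTR.ofFrac (PT.const 1) hn).congr fun a => by push_cast; rfl

/-- powers of `1 / (1/n + 1/m)` -/
theorem PTR_cpow {n m e : α → ℕ} (hn : NB n) (hm : NB m) (he : NB e) (hn0 : ∀ a, n a ≠ 0)
    (hm0 : ∀ a, m a ≠ 0) : PTR (fun a => 1 / (1 / (n a : ℝ) + 1 / (m a : ℝ)) ^ e a) := by
  have h1 : PTR (fun a => (((n a * m a : ℕ) : ℤ) : ℝ) / ((n a + m a : ℕ) : ℝ)) :=
    PTR.ofFrac (hn.mul hm).1.natCast (hn.add hm).1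
  refine (h1.pow he.1 he.2).congr fun a => ?_
  have hn1 : (n a : ℝ) ≠ 0 := by exact_mod_cast hn0 a
  have hm1 : (m a : ℝ) ≠ 0 := by exact_mod_cast hm0 a
  have hs : (n a : ℝ) + m a ≠ 0 := by
    have : (0 : ℝ) < n a + m a := by
      have := Nat.pos_of_ne_zero (hn0 a)
      positivity
    exact this.ne'
  rw [one_div, ← inv_pow]
  congr 1
  push_cast
  field_simp
  ring

theorem PTR_wk {k : α → ℕ} (hk : NB k) : PTR (fun a => wk (k a)) := by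
  have h1 : PTR (fun a => (2 : ℝ) ^ (2 * k a + 1)) := by
    have h2 : NB (fun a => 2 * k a + 1) := (hk.cmul 2).addc 1
    exact ((PTR.constNat (α := α) 2).pow h2.1 h2.2).congr fun a => by push_cast; rfl
  have h3 := PTR_inv_nat (PT.factorial ((hk.cmul 2).addc 1).1 ((hk.cmul 2).addc 1).2)
  exact ((h1.mul ((PTR_fact hk).powConst 2)).mul h3).congr fun a => by unfold wk; ring

theorem PTR_bt {p q : α → ℕ} (hp : NB p) (hq : NB q) : PTR (fun a => bt (p a) (q a)) := by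
  have h2 : NB (fun a => p a + q a + 1) := (hp.add hq).addc 1
  have h3 := PTR_inv_nat ((PT.const (A := ∅) (α := α) 2).mul (PT.factorial h2.1 h2.2))
  exact (((PTR_fact hp).mul (PTR_fact hq)).mul h3).congr fun a => by
    unfold bt; push_cast; ring

theorem PTR_Iv {n m a' p q k : α → ℕ} (hn : NB n) (hm : NB m) (hn0 : ∀ a, n a ≠ 0)
    (hm0 : ∀ a, m a ≠ 0) (ha : NB a') (hp : NB p) (hq : NB q) (hk : NB k) :
    PTR (fun a => Iv (1 / (n a : ℝ) + 1 / (m a : ℝ)) (a' a) (p a) (q a) (k a)) := by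
  have hN : NB (fun a => a' a + 2 * p a + 2 * q a + 2 * k a + 4) :=
    (((ha.add (hp.cmul 2)).add (hq.cmul 2)).add (hk.cmul 2)).addc 4
  have hN1 : NB (fun a => a' a + 2 * p a + 2 * q a + 2 * k a + 5) :=
    (((ha.add (hp.cmul 2)).add (hq.cmul 2)).add (hk.cmul 2)).addc 5
  have h3 : PTR (fun a => 1 / ((2 * k a + 3 : ℕ) : ℝ)) := PTR_inv_nat ((hk.cmul 2).addc 3).1
  have h4 := (PTR_bt hp (hq.add hk)).sub ((PTR_bt hp ((hq.add hk).addc 1)).mul h3)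
  refine (((PTR_wk hk).mul h4).mul ((PTR_fact hN).mul (PTR_cpow hn hm hN1 hn0 hm0))).congr
    fun a => ?_
  unfold Iv
  push_cast
  ring

theorem PTR_aR {n i : α → ℕ} (hn : NB n) (hi : NB i) (hn0 : ∀ a, n a ≠ 0) :
    PTR (fun a => aR (n a) (i a)) := by
  have h1 : PT ∅ (fun a => ((-1 : ℤ)) ^ (i a)) := PT_intPow (PT.const (-1)) hi.1 hi.2
  have h2 := (PT_choose hn.1 hn.2 hi.1).natCast
  have h3 : PTR (fun a => 1 / (((i a)! : ℕ) : ℝ)) := PTR_inv_nat (PT.factorial hi.1 hi.2)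
  have h4 : PTR (fun a => (1 / (n a : ℝ)) ^ i a) := (PTR_inv_nat hn.1).pow hi.1 hi.2
  refine (((PTR.ofInt (PT.intMul h1 h2)).mul h3).mul h4).congr fun a => ?_
  rw [aR, aQ_real (hn0 a)]
  have hn1 : (n a : ℝ) ≠ 0 := by exact_mod_cast hn0 a
  push_cast
  rw [one_div_pow]
  ring

theorem PTR_cS {n j i l : α → ℕ} (hn : NB n) (hj : NB j) (hi : NB i) (hl : NB l)
    (hn0 : ∀ a, n a ≠ 0) : PTR (fun a => cS (n a) (j a) (i a) (l a)) := by
  have h1 := (PTR_nat hj).sub (PTR_nat hi)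
  have h2 := PTR_choose (hj.sub hi) ((hl.cmul 2).addc 1)
  exact (((h1.mul (PTR_aR hn hi hn0)).mul (PTR_aR hn hj hn0)).mul h2).neg.congr fun a => by
    unfold cS; rfl

theorem PTR_GZ {n : α → ℕ} (hn : NB n) : PTR (fun a => ((GZ (n a) : ℤ) : ℝ)) :=
  (PTR_Gn hn.1 hn.2 (PTR.zero (α := α))).congr fun _ => Gn_zero_eq _

theorem PTR_invGZ {n : α → ℕ} (hn : NB n) (hn0 : ∀ a, n a ≠ 0) :
    PTR (fun a => 1 / ((GZ (n a) : ℤ) : ℝ)) :=
  PTR.one.div (PTR_GZ hn) (c := fun _ => 0) (PT.const 0) (PBd.const 0) fun a => by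
    have h := one_le_GZ (hn0 a)
    have h1 : (1 : ℝ) ≤ ((GZ (n a) : ℤ) : ℝ) := by exact_mod_cast h
    rw [abs_of_pos (by linarith)]
    simpa using h1

theorem PTR_invA0 {n : α → ℕ} (hn : NB n) (hn0 : ∀ a, n a ≠ 0) :
    PTR (fun a => 1 / A0 (n a)) :=
  (PTR_invGZ hn hn0).congr fun a => by rw [← Gn_zero (hn0 a), Gn_zero_eq]

theorem PTR_Xv {n m : α → ℕ} (hn : NB n) (hm : NB m) (hn0 : ∀ a, n a ≠ 0)
    (hm0 : ∀ a, m a ≠ 0) : PTR (fun a => Xv (n a) (m a)) := by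
  have h1 : PTR (fun a => ∑ j ∈ range (n a + 1), ∑ i ∈ range j, ∑ l ∈ range (n a + 1),
    ∑ j' ∈ range (m a + 1), ∑ i' ∈ range j', ∑ l' ∈ range (m a + 1),
      cS (n a) j i l * cS (m a) j' i' l' *
        Iv (1 / n a + 1 / m a) ((j - i - 1 - 2 * l) + (j' - i' - 1 - 2 * l')) (i + i') (l + l') 0) := by
    refine PTR_sum (hn.addc 1) (F := fun a j => ∑ i ∈ range j, ∑ l ∈ range (n a + 1),
      ∑ j' ∈ range (m a + 1), ∑ i' ∈ range j', ∑ l' ∈ range (m a + 1),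
      cS (n a) j i l * cS (m a) j' i' l' *
        Iv (1 / n a + 1 / m a) ((j - i - 1 - 2 * l) + (j' - i' - 1 - 2 * l')) (i + i') (l + l') 0) ?_
    refine PTR_sum (α := α × Un) NB.idx (F := fun a i => ∑ l ∈ range (n a.1 + 1),
      ∑ j' ∈ range (m a.1 + 1), ∑ i' ∈ range j', ∑ l' ∈ range (m a.1 + 1),
      cS (n a.1) a.2.v i l * cS (m a.1) j' i' l' *
        Iv (1 / n a.1 + 1 / m a.1) ((a.2.v - i - 1 - 2 * l) + (j' - i' - 1 - 2 * l')) (i + i')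
          (l + l') 0) ?_
    refine PTR_sum (α := (α × Un) × Un) (hn.fst.fst.addc 1) (F := fun a l =>
      ∑ j' ∈ range (m a.1.1 + 1), ∑ i' ∈ range j', ∑ l' ∈ range (m a.1.1 + 1),
      cS (n a.1.1) a.1.2.v a.2.v l * cS (m a.1.1) j' i' l' *
        Iv (1 / n a.1.1 + 1 / m a.1.1) ((a.1.2.v - a.2.v - 1 - 2 * l) + (j' - i' - 1 - 2 * l'))
          (a.2.v + i') (l + l') 0) ?_
    refine PTR_sum (α := ((α × Un) × Un) × Un) (hm.fst.fst.fst.addc 1) (F := fun a j' =>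
      ∑ i' ∈ range j', ∑ l' ∈ range (m a.1.1.1 + 1),
      cS (n a.1.1.1) a.1.1.2.v a.1.2.v a.2.v * cS (m a.1.1.1) j' i' l' *
        Iv (1 / n a.1.1.1 + 1 / m a.1.1.1)
          ((a.1.1.2.v - a.1.2.v - 1 - 2 * a.2.v) + (j' - i' - 1 - 2 * l'))
          (a.1.2.v + i') (a.2.v + l') 0) ?_
    refine PTR_sum (α := (((α × Un) × Un) × Un) × Un) NB.idx (F := fun a i' =>
      ∑ l' ∈ range (m a.1.1.1.1 + 1),
      cS (n a.1.1.1.1) a.1.1.1.2.v a.1.1.2.v a.1.2.v * cS (m a.1.1.1.1) a.2.v i' l' *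
        Iv (1 / n a.1.1.1.1 + 1 / m a.1.1.1.1)
          ((a.1.1.1.2.v - a.1.1.2.v - 1 - 2 * a.1.2.v) + (a.2.v - i' - 1 - 2 * l'))
          (a.1.1.2.v + i') (a.1.2.v + l') 0) ?_
    refine PTR_sum (α := ((((α × Un) × Un) × Un) × Un) × Un)
      (hm.fst.fst.fst.fst.fst.addc 1) (F := fun a l' =>
      cS (n a.1.1.1.1.1) a.1.1.1.1.2.v a.1.1.1.2.v a.1.1.2.v *
        cS (m a.1.1.1.1.1) a.1.2.v a.2.v l' *
        Iv (1 / n a.1.1.1.1.1 + 1 / m a.1.1.1.1.1)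
          ((a.1.1.1.1.2.v - a.1.1.1.2.v - 1 - 2 * a.1.1.2.v) + (a.1.2.v - a.2.v - 1 - 2 * l'))
          (a.1.1.1.2.v + a.2.v) (a.1.1.2.v + l') 0) ?_
    have N := hn.fst.fst.fst.fst.fst.fst
    have Mm := hm.fst.fst.fst.fst.fst.fst
    have J : NB (fun a : (((((α × Un) × Un) × Un) × Un) × Un) × Un => a.1.1.1.1.1.2.v) :=
      NB.idx.fst.fst.fst.fst.fst
    have I : NB (fun a : (((((α × Un) × Un) × Un) × Un) × Un) × Un => a.1.1.1.1.2.v) :=
      NB.idx.fst.fst.fst.fst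
    have L : NB (fun a : (((((α × Un) × Un) × Un) × Un) × Un) × Un => a.1.1.1.2.v) :=
      NB.idx.fst.fst.fst
    have J' : NB (fun a : (((((α × Un) × Un) × Un) × Un) × Un) × Un => a.1.1.2.v) :=
      NB.idx.fst.fst
    have I' : NB (fun a : (((((α × Un) × Un) × Un) × Un) × Un) × Un => a.1.2.v) :=
      NB.idx.fst
    have L' : NB (fun a : (((((α × Un) × Un) × Un) × Un) × Un) × Un => a.2.v) := NB.idx
    have hn0' : ∀ a : (((((α × Un) × Un) × Un) × Un) × Un) × Un, n a.1.1.1.1.1.1 ≠ 0 :=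
      fun a => hn0 _
    have hm0' : ∀ a : (((((α × Un) × Un) × Un) × Un) × Un) × Un, m a.1.1.1.1.1.1 ≠ 0 :=
      fun a => hm0 _
    exact ((PTR_cS N J I L hn0').mul (PTR_cS Mm J' I' L' hm0')).mul
      (PTR_Iv N Mm hn0' hm0' ((((J.sub I).sub (NB.const 1)).sub (L.cmul 2)).add
        (((J'.sub I').sub (NB.const 1)).sub (L'.cmul 2))) (I.add I') (L.add L') (NB.const 0))
  refine ((((PTR.constNat 4).mul (PTR_invA0 hn hn0)).mul (PTR_invA0 hm hm0)).mul h1).congr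
    fun a => ?_
  unfold Xv
  push_cast
  ring

theorem PTR_Ev {n J m : α → ℕ} (hn : NB n) (hJ : NB J) (hm : NB m) (hn0 : ∀ a, n a ≠ 0)
    (hm0 : ∀ a, m a ≠ 0) : PTR (fun a => Ev (n a) (J a) (m a)) := by
  have h1 : PTR (fun a => ∑ j ∈ range (m a + 1), ∑ i ∈ range j, ∑ l ∈ range (m a + 1),
      ∑ k ∈ range (J a + 1), cS (m a) j i l * (((J a).choose k : ℝ) ^ 2 * (-1) ^ k) *
        Iv (1 / m a + 1 / n a) (j - i - 1 - 2 * l) (i + (J a - k)) l k) := by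
    refine PTR_sum (hm.addc 1) (F := fun a j => ∑ i ∈ range j, ∑ l ∈ range (m a + 1),
      ∑ k ∈ range (J a + 1), cS (m a) j i l * (((J a).choose k : ℝ) ^ 2 * (-1) ^ k) *
        Iv (1 / m a + 1 / n a) (j - i - 1 - 2 * l) (i + (J a - k)) l k) ?_
    refine PTR_sum (α := α × Un) NB.idx (F := fun a i => ∑ l ∈ range (m a.1 + 1),
      ∑ k ∈ range (J a.1 + 1), cS (m a.1) a.2.v i l * (((J a.1).choose k : ℝ) ^ 2 * (-1) ^ k) *
        Iv (1 / m a.1 + 1 / n a.1) (a.2.v - i - 1 - 2 * l) (i + (J a.1 - k)) l k) ?_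
    refine PTR_sum (α := (α × Un) × Un) (hm.fst.fst.addc 1) (F := fun a l =>
      ∑ k ∈ range (J a.1.1 + 1), cS (m a.1.1) a.1.2.v a.2.v l *
        (((J a.1.1).choose k : ℝ) ^ 2 * (-1) ^ k) *
        Iv (1 / m a.1.1 + 1 / n a.1.1) (a.1.2.v - a.2.v - 1 - 2 * l)
          (a.2.v + (J a.1.1 - k)) l k) ?_
    refine PTR_sum (α := ((α × Un) × Un) × Un) (hJ.fst.fst.fst.addc 1) (F := fun a k =>
      cS (m a.1.1.1) a.1.1.2.v a.1.2.v a.2.v *
        (((J a.1.1.1).choose k : ℝ) ^ 2 * (-1) ^ k) *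
        Iv (1 / m a.1.1.1 + 1 / n a.1.1.1) (a.1.1.2.v - a.1.2.v - 1 - 2 * a.2.v)
          (a.1.2.v + (J a.1.1.1 - k)) a.2.v k) ?_
    have N := hn.fst.fst.fst.fst
    have M := hm.fst.fst.fst.fst
    have Jj := hJ.fst.fst.fst.fst
    have j : NB (fun a : (((α × Un) × Un) × Un) × Un => a.1.1.1.2.v) := NB.idx.fst.fst.fst
    have i : NB (fun a : (((α × Un) × Un) × Un) × Un => a.1.1.2.v) := NB.idx.fst.fst
    have l : NB (fun a : (((α × Un) × Un) × Un) × Un => a.1.2.v) := NB.idx.fst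
    have k : NB (fun a : (((α × Un) × Un) × Un) × Un => a.2.v) := NB.idx
    have hn0' : ∀ a : (((α × Un) × Un) × Un) × Un, n a.1.1.1.1 ≠ 0 := fun a => hn0 _
    have hm0' : ∀ a : (((α × Un) × Un) × Un) × Un, m a.1.1.1.1 ≠ 0 := fun a => hm0 _
    have hs : PTR (fun a : (((α × Un) × Un) × Un) × Un => ((-1 : ℝ)) ^ a.2.v) :=
      (PTR.ofInt (PT_intPow (PT.const (-1)) k.1 k.2)).congr fun a => by push_cast; rfl
    exact ((PTR_cS M j i l hm0').mul (((PTR_choose Jj k).powConst 2).mul hs)).mul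
      (PTR_Iv M N hm0' hn0' (((j.sub i).sub (NB.const 1)).sub (l.cmul 2))
        (i.add (Jj.sub k)) l k)
  have h2 : PTR (fun a => (1 / 4 : ℝ) ^ J a) :=
    ((PTR.constRat (α := α) (1 / 4)).pow hJ.1 hJ.2).congr fun a => by push_cast; rfl
  refine ((((PTR.constNat 2).mul PTR.pi).mul (PTR_invA0 hm hm0)).mul h2 |>.mul h1).congr
    fun a => ?_
  unfold Ev
  push_cast
  ring

/-- powers of `1 / (2/n)` -/
theorem PTR_c2pow {n e : α → ℕ} (hn : NB n) (he : NB e) :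
    PTR (fun a => 1 / (2 / (n a : ℝ)) ^ e a) := by
  have h1 : PTR (fun a => (n a : ℝ) * ((1 / 2 : ℚ) : ℝ)) := (PTR_nat hn).mul (PTR.constRat (1 / 2))
  refine (h1.pow he.1 he.2).congr fun a => ?_
  have h2 : (n a : ℝ) * ((1 / 2 : ℚ) : ℝ) = (2 / (n a : ℝ))⁻¹ := by
    rw [inv_div]; push_cast; ring
  rw [h2, inv_pow, one_div]

/-- powers of `1 / (2/n + 2/m)` -/
theorem PTR_c22pow {n m e : α → ℕ} (hn : NB n) (hm : NB m) (he : NB e) (hn0 : ∀ a, n a ≠ 0)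
    (hm0 : ∀ a, m a ≠ 0) : PTR (fun a => 1 / (2 / (n a : ℝ) + 2 / (m a : ℝ)) ^ e a) := by
  have h1 := PTR_cpow hn hm he hn0 hm0
  have h2 : PTR (fun a => ((1 / 2 : ℚ) : ℝ) ^ e a) := (PTR.constRat (1 / 2)).pow he.1 he.2
  refine (h1.mul h2).congr fun a => ?_
  have h3 : 2 / (n a : ℝ) + 2 / (m a : ℝ) = 2 * (1 / (n a : ℝ) + 1 / (m a : ℝ)) := by ring
  rw [h3, mul_pow]
  push_cast
  rw [one_div_pow, one_div_mul_one_div, mul_comm]

theorem PTR_PM {n m j : α → ℕ} (hn : NB n) (hm : NB m) (hj : NB j) (hn0 : ∀ a, n a ≠ 0)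
    (hj0 : ∀ a, j a ≠ 0) : PTR (fun a => PM (2 / (n a : ℝ)) (m a) (j a)) := by
  have h1 : PTR (fun a => ∑ l ∈ range (j a + 1), ∑ i ∈ range l, (Gc (j a) i l : ℝ) *
      ∑ b ∈ range (i + l + 1), (((i + l : ℕ) : ℝ) + 1 - b) * ((2 / (j a : ℝ)) ^ b / b !) *
        (((m a + b)! : ℝ) / (2 / (n a : ℝ) + 2 / (j a : ℝ)) ^ (m a + b + 1))) := by
    refine PTR_sum (hj.addc 1) (F := fun a l => ∑ i ∈ range l, (Gc (j a) i l : ℝ) *
      ∑ b ∈ range (i + l + 1), (((i + l : ℕ) : ℝ) + 1 - b) * ((2 / (j a : ℝ)) ^ b / b !) *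
        (((m a + b)! : ℝ) / (2 / (n a : ℝ) + 2 / (j a : ℝ)) ^ (m a + b + 1))) ?_
    refine PTR_sum (α := α × Un) NB.idx (F := fun a i => (Gc (j a.1) i a.2.v : ℝ) *
      ∑ b ∈ range (i + a.2.v + 1), (((i + a.2.v : ℕ) : ℝ) + 1 - b) *
        ((2 / (j a.1 : ℝ)) ^ b / b !) *
        (((m a.1 + b)! : ℝ) / (2 / (n a.1 : ℝ) + 2 / (j a.1 : ℝ)) ^ (m a.1 + b + 1))) ?_
    have l2 : NB (fun a : (α × Un) × Un => a.1.2.v) := NB.idx.fst
    have i2 : NB (fun a : (α × Un) × Un => a.2.v) := NB.idx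
    refine PTR.mul (PTR.ofInt (PT_Gc hj.fst.fst.1 hj.fst.fst.2 i2.1 i2.2 l2.1 l2.2)) ?_
    refine PTR_sum (α := (α × Un) × Un) ((i2.add l2).addc 1) (F := fun a b =>
      (((a.2.v + a.1.2.v : ℕ) : ℝ) + 1 - b) *
        ((2 / (j a.1.1 : ℝ)) ^ b / b !) *
        (((m a.1.1 + b)! : ℝ) / (2 / (n a.1.1 : ℝ) + 2 / (j a.1.1 : ℝ)) ^ (m a.1.1 + b + 1))) ?_
    have N := hn.fst.fst.fst
    have M := hm.fst.fst.fst
    have Jj := hj.fst.fst.fst
    have l : NB (fun a : ((α × Un) × Un) × Un => a.1.1.2.v) := NB.idx.fst.fst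
    have i : NB (fun a : ((α × Un) × Un) × Un => a.1.2.v) := NB.idx.fst
    have b : NB (fun a : ((α × Un) × Un) × Un => a.2.v) := NB.idx
    have hn0' : ∀ a : ((α × Un) × Un) × Un, n a.1.1.1 ≠ 0 := fun a => hn0 _
    have hj0' : ∀ a : ((α × Un) × Un) × Un, j a.1.1.1 ≠ 0 := fun a => hj0 _
    have e1 : PTR (fun a : ((α × Un) × Un) × Un => (((a.1.2.v + a.1.1.2.v : ℕ) : ℝ) + 1 - a.2.v)) :=
      ((PTR_nat (i.add l)).add PTR.one).sub (PTR_nat b)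
    have e2 : PTR (fun a : ((α × Un) × Un) × Un => (2 / (j a.1.1.1 : ℝ)) ^ a.2.v) :=
      ((PTR.ofFrac (PT.const 2) Jj.1).pow b.1 b.2).congr fun a => by push_cast; rfl
    have e3 : PTR (fun a : ((α × Un) × Un) × Un => 1 / ((a.2.v ! : ℕ) : ℝ)) :=
      PTR_inv_nat (PT.factorial b.1 b.2)
    have e4 := PTR_fact (M.add b)
    have e5 := PTR_c22pow N Jj ((M.add b).addc 1) hn0' hj0'
    exact ((e1.mul (e2.mul e3)).mul (e4.mul e5)).congr fun a => by ring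
  have h2 := (PTR_fact hm).mul (PTR_c2pow hn (hm.addc 1))
  refine (h2.sub ((PTR_invGZ hj hj0).mul h1)).congr fun a => ?_
  unfold PM
  ring

theorem PTR_dS {i a' l : α → ℕ} (hi : NB i) (ha : NB a') (hl : NB l) (hi0 : ∀ a, i a ≠ 0) :
    PTR (fun a => dS (i a) (a' a) (l a)) := by
  have h1 := ((PTR_nat hl).sub (PTR_nat ha)).powConst 2
  have h2 : PTR (fun a => (2 : ℝ) ^ (a' a + l a)) :=
    ((PTR.constNat (α := α) 2).pow (ha.add hl).1 (ha.add hl).2).congr fun a => by push_cast; rfl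
  exact (((h1.mul (PTR_aR hi ha hi0)).mul (PTR_aR hi hl hi0)).mul h2).neg.congr fun a => by
    unfold dS; rfl

theorem PTR_Dv {i j : α → ℕ} (hi : NB i) (hj : NB j) (hi0 : ∀ a, i a ≠ 0) (hj0 : ∀ a, j a ≠ 0) :
    PTR (fun a => Dv (i a) (j a)) := by
  have h1 : PTR (fun x => ∑ l ∈ range (i x + 1), ∑ a ∈ range l,
      dS (i x) a l * PM (2 / (i x : ℝ)) (a + l) (j x)) := by
    refine PTR_sum (hi.addc 1) (F := fun x l => ∑ a ∈ range l,
      dS (i x) a l * PM (2 / (i x : ℝ)) (a + l) (j x)) ?_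
    refine PTR_sum (α := α × Un) NB.idx (F := fun x a =>
      dS (i x.1) a x.2.v * PM (2 / (i x.1 : ℝ)) (a + x.2.v) (j x.1)) ?_
    have l : NB (fun a : (α × Un) × Un => a.1.2.v) := NB.idx.fst
    have a' : NB (fun a : (α × Un) × Un => a.2.v) := NB.idx
    exact (PTR_dS hi.fst.fst a' l fun a => hi0 _).mul
      (PTR_PM hi.fst.fst (a'.add l) hj.fst.fst (fun a => hi0 _) fun a => hj0 _)
  refine ((((PTR.constNat 4).mul ((PTR_nat hj).powConst 2)).mul (PTR_invA0 hi hi0)).mul h1).congr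
    fun a => ?_
  unfold Dv
  push_cast
  ring

theorem PTR_Dw {n J j : α → ℕ} (hn : NB n) (hJ : NB J) (hj : NB j) (hn0 : ∀ a, n a ≠ 0)
    (hj0 : ∀ a, j a ≠ 0) : PTR (fun a => Dw (n a) (J a) (j a)) := by
  refine ((((PTR.constNat 4).mul PTR.pi).mul ((PTR_nat hj).powConst 2)).mul
    (PTR_PM hn ((hJ.cmul 2).addc 1) hj hn0 hj0)).congr fun a => ?_
  unfold Dw
  push_cast
  ring

/-- **`coreE` is polynomial-time approximable.** -/
theorem PTR_coreE {n : α → ℕ} (hn : PT ∅ n) (hnb : PBd n) : PTR (fun a => coreE (n a)) := by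
  have hN : NB n := ⟨hn, hnb⟩
  refine PTR_sum (hN.sub (NB.const 1)) (F := fun a i => ∑ j ∈ range (n a - 1),
    (2 * Dv (i + 1) (j + 1) - Xv (i + 1) (j + 1))) ?_
  refine PTR_sum (α := α × Un) (hN.sub (NB.const 1)).fst (F := fun a j =>
    (2 * Dv (a.2.v + 1) (j + 1) - Xv (a.2.v + 1) (j + 1))) ?_
  have i : NB (fun a : (α × Un) × Un => a.1.2.v + 1) := NB.idx.fst.addc 1
  have j : NB (fun a : (α × Un) × Un => a.2.v + 1) := NB.idx.addc 1
  have h1 := PTR_Dv i j (fun a => Nat.succ_ne_zero _) fun a => Nat.succ_ne_zero _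
  have h2 := PTR_Xv i j (fun a => Nat.succ_ne_zero _) fun a => Nat.succ_ne_zero _
  exact (((PTR.constNat 2).mul h1).sub h2).congr fun a => by push_cast; rfl

/-- **`fE` is polynomial-time approximable.** -/
theorem PTR_fE {n : α → ℕ} (hn : PT ∅ n) (hnb : PBd n) : PTR (fun a => fE (n a)) := by
  have hN : NB n := ⟨hn, hnb⟩
  -- `max n 1` replaces `n`: both sides vanish for `n = 0`
  have hN1 : NB (fun a => n a - 1 + 1) := (hN.sub (NB.const 1)).addc 1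
  have hJ : NB (fun a => n a - 1) := hN.sub (NB.const 1)
  have h1 : PTR (fun a => ∑ j ∈ range (n a - 1),
      (2 * Dw (n a - 1 + 1) (n a - 1) (j + 1) - Ev (n a - 1 + 1) (n a - 1) (j + 1))) := by
    refine PTR_sum hJ (F := fun a j =>
      (2 * Dw (n a - 1 + 1) (n a - 1) (j + 1) - Ev (n a - 1 + 1) (n a - 1) (j + 1))) ?_
    have j : NB (fun a : α × Un => a.2.v + 1) := NB.idx.addc 1
    have e1 := PTR_Dw hN1.fst hJ.fst j (fun a => Nat.succ_ne_zero _) fun a => Nat.succ_ne_zero _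
    have e2 := PTR_Ev hN1.fst hJ.fst j (fun a => Nat.succ_ne_zero _) fun a => Nat.succ_ne_zero _
    exact (((PTR.constNat 2).mul e1).sub e2).congr fun a => by push_cast; rfl
  have hpi : PTR (fun _ : α => 1 / Real.pi) :=
    PTR.one.div PTR.pi (c := fun _ => 0) (PT.const 0) (PBd.const 0) fun a => by
      rw [abs_of_pos Real.pi_pos]
      have := Real.pi_gt_three
      simp
      linarith
  have hf : PTR (fun a => 1 / (((2 * n a)! : ℕ) : ℝ)) :=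
    PTR_inv_nat (PT.factorial (hN.cmul 2).1 (hN.cmul 2).2)
  have hp : PTR (fun a => (1 / (n a : ℝ)) ^ (2 * n a + 1)) :=
    (PTR_inv_nat hn).pow ((hN.cmul 2).addc 1).1 ((hN.cmul 2).addc 1).2
  have h2 : PTR (fun a => (2 : ℝ) ^ (2 * n a - 1)) :=
    ((PTR.constNat (α := α) 2).pow ((hN.cmul 2).sub (NB.const 1)).1
      ((hN.cmul 2).sub (NB.const 1)).2).congr fun a => by push_cast; rfl
  refine (((h1.mul hpi).mul (hf.mul hp)).mul h2).congr fun a => ?_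
  rcases Nat.eq_zero_or_pos (n a) with h0 | h0
  · rw [h0]
    simp [fE]
  · have h3 : n a - 1 + 1 = n a := Nat.sub_add_cancel h0
    rw [h3]
    unfold fE wM
    rw [one_div_pow]
    have hn1 : (n a : ℝ) ≠ 0 := by exact_mod_cast h0.ne'
    have hpi' := Real.pi_ne_zero
    field_simp

end

end Vale.Agent.P370.H374
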