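import Vale.Agent.P370.H374.Elem
import Vale.Agent.P370.H32.Tri
import Vale.Agent.P363.R.H10.ExpPoly

/-! Integrals over the region of triangle coordinates. -/

namespace Vale.Agent.P370.H374

open MeasureTheory Set Real Finset
open Vale.Agent.P363.H849 (R3 integral_rad integrable_rad integrableOn_pow_exp integral_pow_exp)
open Vale.Agent.P370.H32 (Reg tri wt measurableSet_Reg measurable_tri measurable_wt wt_nonneg
  integrable_tri integral_tri)
open scoped Nat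

noncomputable section

/-- `f` is integrable on the region with integral `v` -/
def HasI (f : ℝ × ℝ × ℝ → ℝ) (v : ℝ) : Prop := IntegrableOn f Reg ∧ ∫ q in Reg, f q = v

theorem HasI.sum {ι : Type*} (S : Finset ι) {f : ι → ℝ × ℝ × ℝ → ℝ} {v : ι → ℝ}
    (h : ∀ i ∈ S, HasI (f i) (v i)) : HasI (fun q => ∑ i ∈ S, f i q) (∑ i ∈ S, v i) := by
  constructor
  · exact integrable_finsetSum S fun i hi => (h i hi).1
  · rw [integral_finsetSum S fun i hi => (h i hi).1]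
    exact sum_congr rfl fun i hi => (h i hi).2

theorem HasI.const_mul {f : ℝ × ℝ × ℝ → ℝ} {v : ℝ} (h : HasI f v) (c : ℝ) :
    HasI (fun q => c * f q) (c * v) := by
  constructor
  · exact h.1.const_mul c
  · rw [integral_const_mul, h.2]

theorem HasI.congr {f g : ℝ × ℝ × ℝ → ℝ} {v : ℝ} (h : HasI f v) (hfg : ∀ q ∈ Reg, g q = f q) :
    HasI g v := by
  constructor
  · exact h.1.congr_fun (fun q hq => (hfg q hq).symm) measurableSet_Reg
  · rw [← h.2]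
    exact setIntegral_congr_fun measurableSet_Reg hfg

theorem Reg_pos {q : ℝ × ℝ × ℝ} (hq : q ∈ Reg) : 0 < q.2.1 ∧ 0 < q.1 ∧ |q.2.2| < q.1 := by
  obtain ⟨h1, h2⟩ := hq
  have := abs_nonneg q.2.2
  refine ⟨?_, ?_, ?_⟩ <;> linarith

/-- integrability on the region from exponential decay in `σ` -/
theorem reg_int {F : ℝ × ℝ × ℝ → ℝ} (hF : Measurable F) {c : ℝ} (hc : 0 < c) (m : ℕ) (C : ℝ)
    (hb : ∀ q ∈ Reg, |F q| ≤ C * ((1 + q.1) ^ m * exp (-c * q.1))) : IntegrableOn F Reg := by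
  obtain ⟨D, hD, hb'⟩ := Vale.Agent.P363.R.H10.pow_mul_exp_le (m + 6) hc
  have h1 : Integrable (fun q : ℝ × ℝ × ℝ => |C| * D * ((1 + q.1 ^ 2)⁻¹ *
      ((1 + q.2.1 ^ 2)⁻¹ * (1 + q.2.2 ^ 2)⁻¹))) :=
    (integrable_inv_one_add_sq.mul_prod
      (integrable_inv_one_add_sq.mul_prod integrable_inv_one_add_sq)).const_mul _
  refine (h1.integrableOn (s := Reg)).mono' hF.aestronglyMeasurable ?_
  filter_upwards [ae_restrict_mem measurableSet_Reg] with q hq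
  obtain ⟨h2, h3, h4⟩ := Reg_pos hq
  have h5 := hq.2
  rw [Real.norm_eq_abs]
  have h6 := hb q hq
  have h7 := hb' q.1 h3.le
  have h8 : (1 + q.1 ^ 2) ≤ (1 + q.1) ^ 2 := by nlinarith
  have h9 : (1 + q.2.1 ^ 2) ≤ (1 + q.1) ^ 2 := by nlinarith
  have h10 : (1 + q.2.2 ^ 2) ≤ (1 + q.1) ^ 2 := by
    have : q.2.2 ^ 2 ≤ q.1 ^ 2 := sq_le_sq' (by linarith [(abs_lt.1 h4).1]) (by linarith [(abs_lt.1 h4).2])
    nlinarith
  have h11 : (1 + q.1 ^ 2) * ((1 + q.2.1 ^ 2) * (1 + q.2.2 ^ 2)) ≤ (1 + q.1) ^ 6 := by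
    calc (1 + q.1 ^ 2) * ((1 + q.2.1 ^ 2) * (1 + q.2.2 ^ 2))
        ≤ (1 + q.1) ^ 2 * ((1 + q.1) ^ 2 * (1 + q.1) ^ 2) := by gcongr
      _ = (1 + q.1) ^ 6 := by ring
  have h12 : 0 < (1 + q.1 ^ 2) * ((1 + q.2.1 ^ 2) * (1 + q.2.2 ^ 2)) := by positivity
  rw [← mul_inv, ← mul_inv, ← div_eq_mul_inv, le_div_iff₀ h12]
  calc |F q| * ((1 + q.1 ^ 2) * ((1 + q.2.1 ^ 2) * (1 + q.2.2 ^ 2)))
      ≤ (|C| * ((1 + q.1) ^ m * exp (-c * q.1))) * (1 + q.1) ^ 6 := by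
        refine mul_le_mul (h6.trans ?_) h11 h12.le (by positivity)
        gcongr
        exact le_abs_self C
    _ = |C| * ((1 + q.1) ^ (m + 6) * exp (-c * q.1)) := by ring
    _ ≤ |C| * D := by gcongr

/-- Fubini on the region -/
theorem integral_Reg {F : ℝ × ℝ × ℝ → ℝ} (hF : IntegrableOn F Reg) :
    ∫ q in Reg, F q = ∫ σ in Ioi (0 : ℝ), ∫ s in (0 : ℝ)..σ, ∫ d in (-s)..s, F (σ, s, d) := by
  have h1 : Integrable (Reg.indicator F) := (integrable_indicator_iff measurableSet_Reg).2 hF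
  rw [← integral_indicator measurableSet_Reg, Measure.volume_eq_prod, integral_prod _ h1,
    ← integral_indicator measurableSet_Ioi]
  refine integral_congr_ae ?_
  filter_upwards [h1.prod_right_ae] with σ hσ
  rw [Measure.volume_eq_prod, integral_prod _ hσ]
  have hd : ∀ s : ℝ, ∫ d, Reg.indicator F (σ, s, d) =
      (Ioo 0 σ).indicator (fun s => ∫ d in (-s)..s, F (σ, s, d)) s := by
    intro s
    by_cases hs : s ∈ Ioo 0 σ
    · rw [indicator_of_mem hs, intervalIntegral.integral_of_le (by linarith [hs.1]),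
        integral_Ioc_eq_integral_Ioo, ← integral_indicator measurableSet_Ioo]
      congr 1
      ext d
      by_cases hd : d ∈ Ioo (-s) s
      · rw [indicator_of_mem hd, indicator_of_mem]
        exact ⟨abs_lt.2 hd, hs.2⟩
      · rw [indicator_of_notMem hd, indicator_of_notMem]
        rintro ⟨h3, -⟩
        exact hd (abs_lt.1 h3)
    · rw [indicator_of_notMem hs]
      have : ∀ d, Reg.indicator F (σ, s, d) = 0 := by
        intro d
        apply indicator_of_notMem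
        rintro ⟨h3, h4⟩
        exact hs ⟨(abs_nonneg d).trans_lt h3, h4⟩
      simp [this]
  simp_rw [hd]
  rw [integral_indicator measurableSet_Ioo]
  by_cases h0 : 0 < σ
  · rw [indicator_of_mem (Set.mem_Ioi.2 h0), intervalIntegral.integral_of_le h0.le,
      integral_Ioc_eq_integral_Ioo]
  · rw [indicator_of_notMem (by simpa using h0), Set.Ioo_eq_empty (by simpa using h0)]
    simp

/-- the Beta numbers -/
def bt (p q : ℕ) : ℝ := (p ! : ℝ) * q ! / (2 * ((p + q + 1)! : ℝ))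

/-- the basic integrand -/
def Tf (c : ℝ) (a p q k : ℕ) (z : ℝ × ℝ × ℝ) : ℝ :=
  exp (-c * z.1) * z.1 ^ a * (z.1 ^ 2 - z.2.1 ^ 2) ^ p * z.2.1 ^ (2 * q) *
    ((z.2.1 ^ 2 - z.2.2 ^ 2) ^ k * (z.1 ^ 2 - z.2.2 ^ 2))

/-- the value of the basic integral -/
def Iv (c : ℝ) (a p q k : ℕ) : ℝ :=
  wk k * (bt p (q + k) - bt p (q + k + 1) / (2 * k + 3)) *
    ((a + 2 * p + 2 * q + 2 * k + 4)! / c ^ (a + 2 * p + 2 * q + 2 * k + 5))

theorem measurable_Tf (c : ℝ) (a p q k : ℕ) : Measurable (Tf c a p q k) := by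
  unfold Tf; fun_prop

theorem Tf_le {c : ℝ} (a p q k : ℕ) {z : ℝ × ℝ × ℝ} (hz : z ∈ Reg) :
    |Tf c a p q k z| ≤ 1 * ((1 + z.1) ^ (a + 2 * p + 2 * q + 2 * k + 2) * exp (-c * z.1)) := by
  obtain ⟨h2, h3, h4⟩ := Reg_pos hz
  have h5 := hz.2
  have h1 := hz.1
  have hd : z.2.2 ^ 2 ≤ z.2.1 ^ 2 :=
    sq_le_sq' (by linarith [(abs_lt.1 h1).1]) (by linarith [(abs_lt.1 h1).2])
  have hs : z.2.1 ^ 2 ≤ z.1 ^ 2 := by nlinarith
  have e1 : 0 ≤ z.1 ^ 2 - z.2.1 ^ 2 := by linarith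
  have e2 : 0 ≤ z.2.1 ^ 2 - z.2.2 ^ 2 := by linarith
  have e3 : 0 ≤ z.1 ^ 2 - z.2.2 ^ 2 := by linarith
  have f1 : z.1 ^ 2 - z.2.1 ^ 2 ≤ (1 + z.1) ^ 2 := by nlinarith
  have f2 : z.2.1 ^ 2 - z.2.2 ^ 2 ≤ (1 + z.1) ^ 2 := by nlinarith
  have f3 : z.1 ^ 2 - z.2.2 ^ 2 ≤ (1 + z.1) ^ 2 := by nlinarith
  unfold Tf
  rw [abs_of_nonneg (by positivity)]
  calc exp (-c * z.1) * z.1 ^ a * (z.1 ^ 2 - z.2.1 ^ 2) ^ p * z.2.1 ^ (2 * q) *
    ((z.2.1 ^ 2 - z.2.2 ^ 2) ^ k * (z.1 ^ 2 - z.2.2 ^ 2))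
      ≤ exp (-c * z.1) * (1 + z.1) ^ a * ((1 + z.1) ^ 2) ^ p * (1 + z.1) ^ (2 * q) *
        (((1 + z.1) ^ 2) ^ k * (1 + z.1) ^ 2) := by gcongr <;> linarith
    _ = 1 * ((1 + z.1) ^ (a + 2 * p + 2 * q + 2 * k + 2) * exp (-c * z.1)) := by
        rw [← pow_mul, ← pow_mul]
        ring

theorem hasI_Tf {c : ℝ} (hc : 0 < c) (a p q k : ℕ) : HasI (Tf c a p q k) (Iv c a p q k) := by
  have hint : IntegrableOn (Tf c a p q k) Reg :=
    reg_int (measurable_Tf c a p q k) hc _ 1 (fun z hz => Tf_le a p q k hz)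
  refine ⟨hint, ?_⟩
  rw [integral_Reg hint]
  have h1 : ∀ σ ∈ Ioi (0 : ℝ), ∫ s in (0 : ℝ)..σ, ∫ d in (-s)..s, Tf c a p q k (σ, s, d) =
      wk k * (bt p (q + k) - bt p (q + k + 1) / (2 * k + 3)) *
        (σ ^ (a + 2 * p + 2 * q + 2 * k + 4) * exp (-c * σ)) := by
    intro σ _
    have h2 : ∀ s : ℝ, ∫ d in (-s)..s, Tf c a p q k (σ, s, d) =
        (exp (-c * σ) * σ ^ a * wk k) * (σ ^ 2 * ((σ ^ 2 - s ^ 2) ^ p * s ^ (2 * (q + k) + 1)) -
          (1 / (2 * k + 3)) * ((σ ^ 2 - s ^ 2) ^ p * s ^ (2 * (q + k + 1) + 1))) := by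
      intro s
      unfold Tf
      simp only
      rw [intervalIntegral.integral_const_mul, int_delta]
      ring
    simp_rw [h2]
    rw [intervalIntegral.integral_const_mul, intervalIntegral.integral_sub
      (by apply Continuous.intervalIntegrable; fun_prop)
      (by apply Continuous.intervalIntegrable; fun_prop), intervalIntegral.integral_const_mul,
      intervalIntegral.integral_const_mul, int_beta, int_beta]
    unfold bt
    ring
  rw [setIntegral_congr_fun measurableSet_Ioi h1, integral_const_mul, integral_pow_exp _ hc]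
  rfl

end

end Vale.Agent.P370.H374
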