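import Mathlib

/-! Averages over roots of unity: the constant coefficient of `(A + B t + C t⁻¹)^J`. -/

namespace Vale.Agent.P370.H374

open Finset

theorem sum_root {M : ℕ} {z : ℂ} (hz : IsPrimitiveRoot z M) {a b : ℕ} (ha : a < M) (hb : b < M) :
    ∑ m ∈ range M, (z ^ m) ^ a * ((z ^ m)⁻¹) ^ b = if a = b then (M : ℂ) else 0 := by
  have hM : 0 < M := by omega
  have hz0 : z ≠ 0 := hz.ne_zero hM.ne'
  split_ifs with h
  · subst h
    have : ∀ m ∈ range M, (z ^ m) ^ a * ((z ^ m)⁻¹) ^ a = 1 := by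
      intro m _
      rw [← mul_pow, mul_inv_cancel₀ (pow_ne_zero _ hz0), one_pow]
    rw [sum_congr rfl this]
    simp
  · have h1 : ∀ m ∈ range M, (z ^ m) ^ a * ((z ^ m)⁻¹) ^ b = (z ^ a / z ^ b) ^ m := by
      intro m _
      rw [div_pow, ← pow_mul, ← pow_mul, inv_pow, ← pow_mul, ← pow_mul, mul_comm m a, mul_comm m b,
        div_eq_mul_inv]
    rw [sum_congr rfl h1]
    have h2 : z ^ a / z ^ b ≠ 1 := by
      intro h3
      rw [div_eq_one_iff_eq (pow_ne_zero _ hz0)] at h3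
      exact h (hz.pow_inj ha hb h3)
    rw [geom_sum_eq h2, div_pow, ← pow_mul, ← pow_mul, mul_comm a M, mul_comm b M, pow_mul, pow_mul,
      hz.pow_eq_one]
    simp

/-- the average of `((X + B t) (1 + D t⁻¹))^J` -/
theorem sum_prod {M : ℕ} {z : ℂ} (hz : IsPrimitiveRoot z M) {J : ℕ} (hJ : J < M) (X B D : ℂ) :
    ∑ m ∈ range M, ((X + B * z ^ m) * (1 + D * (z ^ m)⁻¹)) ^ J =
      M * ∑ k ∈ range (J + 1), (J.choose k : ℂ) ^ 2 * (X ^ (J - k) * (B * D) ^ k) := by
  have h1 : ∀ m ∈ range M, ((X + B * z ^ m) * (1 + D * (z ^ m)⁻¹)) ^ J =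
      ∑ a ∈ range (J + 1), ∑ b ∈ range (J + 1),
        ((J.choose a : ℂ) * (J.choose b : ℂ) * (X ^ (J - a) * B ^ a * D ^ b)) *
          ((z ^ m) ^ a * ((z ^ m)⁻¹) ^ b) := by
    intro m _
    rw [mul_pow, add_comm X, add_comm 1, add_pow, add_pow, sum_mul_sum]
    refine sum_congr rfl fun a _ => sum_congr rfl fun b _ => ?_
    rw [mul_pow, mul_pow, one_pow]
    ring
  rw [sum_congr rfl h1, sum_comm]
  have h2 : ∀ a ∈ range (J + 1), ∑ m ∈ range M, ∑ b ∈ range (J + 1),
        ((J.choose a : ℂ) * (J.choose b : ℂ) * (X ^ (J - a) * B ^ a * D ^ b)) *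
          ((z ^ m) ^ a * ((z ^ m)⁻¹) ^ b) =
        M * ((J.choose a : ℂ) ^ 2 * (X ^ (J - a) * (B * D) ^ a)) := by
    intro a ha
    rw [sum_comm]
    have h3 : ∀ b ∈ range (J + 1), ∑ m ∈ range M,
        ((J.choose a : ℂ) * (J.choose b : ℂ) * (X ^ (J - a) * B ^ a * D ^ b)) *
          ((z ^ m) ^ a * ((z ^ m)⁻¹) ^ b) =
        if a = b then M * ((J.choose a : ℂ) ^ 2 * (X ^ (J - a) * (B * D) ^ a)) else 0 := by
      intro b hb
      rw [← mul_sum, sum_root hz (by simp at ha; omega) (by simp at hb; omega)]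
      split_ifs with h
      · subst h; rw [mul_pow]; ring
      · simp
    rw [sum_congr rfl h3, sum_ite_eq, if_pos ha]
  rw [sum_congr rfl h2, mul_sum]

/-- the average of `(A + B t + C t⁻¹)^J` when `X + Y = A`, `X Y = B C` -/
theorem sum_trinomial {M : ℕ} {z : ℂ} (hz : IsPrimitiveRoot z M) {J : ℕ} (hJ : J < M)
    {A B C X Y : ℂ} (h1 : X + Y = A) (h2 : X * Y = B * C) :
    ∑ m ∈ range M, (A + B * z ^ m + C * (z ^ m)⁻¹) ^ J =
      M * ∑ k ∈ range (J + 1), (J.choose k : ℂ) ^ 2 * (X ^ (J - k) * Y ^ k) := by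
  have hM : 0 < M := by omega
  have hz0 : z ≠ 0 := hz.ne_zero hM.ne'
  by_cases hB : B = 0
  · subst hB
    have h3 := sum_prod hz hJ 1 0 C
    have h4 : ∀ m ∈ range M, (A + 0 * z ^ m + C * (z ^ m)⁻¹) ^ J =
        ∑ b ∈ range (J + 1), ((J.choose b : ℂ) * A ^ (J - b) * C ^ b) *
          ((z ^ m) ^ 0 * ((z ^ m)⁻¹) ^ b) := by
      intro m _
      rw [zero_mul, add_zero, add_comm A, add_pow]
      refine sum_congr rfl fun b _ => ?_
      rw [mul_pow]
      ring
    rw [sum_congr rfl h4, sum_comm]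
    have h5 : ∀ b ∈ range (J + 1), ∑ m ∈ range M, ((J.choose b : ℂ) * A ^ (J - b) * C ^ b) *
          ((z ^ m) ^ 0 * ((z ^ m)⁻¹) ^ b) = if b = 0 then (M : ℂ) * A ^ J else 0 := by
      intro b hb
      rw [← mul_sum, sum_root hz (by omega) (by simp at hb; omega)]
      by_cases hb0 : b = 0
      · subst hb0; simp; ring
      · rw [if_neg (Ne.symm hb0), if_neg hb0, mul_zero]
    rw [sum_congr rfl h5, sum_ite_eq', if_pos (by simp)]
    congr 1
    rw [zero_mul, mul_eq_zero] at h2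
    rcases h2 with h2 | h2
    · subst h2
      rw [zero_add] at h1
      subst h1
      rw [sum_eq_single J]
      · simp
      · intro k hk hkJ
        have : J - k ≠ 0 := by simp at hk; omega
        rw [zero_pow this]; ring
      · simp
    · subst h2
      rw [add_zero] at h1
      subst h1
      rw [sum_eq_single 0]
      · simp
      · intro k _ hk
        rw [zero_pow hk]; ring
      · simp
  · have h3 := sum_prod hz hJ X B (Y / B)
    have h4 : B * (Y / B) = Y := by field_simp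
    rw [h4] at h3
    rw [← h3]
    refine sum_congr rfl fun m _ => ?_
    congr 1
    have h5 : C = X * Y / B := by rw [h2]; field_simp
    have h6 : z ^ m ≠ 0 := pow_ne_zero _ hz0
    rw [h5, ← h1]
    field_simp
    ring

end Vale.Agent.P370.H374
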