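import Vale.Agent.P363.H849.Rad
import Vale.Agent.P370.H374.Roots

/-! Rotations about an axis, null vectors. -/

namespace Vale.Agent.P370.H374

open MeasureTheory Set Real Finset
open Vale.Agent.P363.H849 (R3 integral_rad integrable_rad integrableOn_pow_exp integral_pow_exp)

noncomputable section

theorem rcomp (F : Type*) [NormedAddCommGroup F] [NormedSpace ℝ F] (A : R3 ≃ₗᵢ[ℝ] R3) (f : R3 → F) :
    ∫ x, f (A x) = ∫ x, f x :=
  (LinearIsometryEquiv.measurePreserving A).integral_comp A.toHomeomorph.measurableEmbedding f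

theorem rint {F : Type*} [NormedAddCommGroup F] (A : R3 ≃ₗᵢ[ℝ] R3) {f : R3 → F} :
    Integrable (fun x => f (A x)) ↔ Integrable f :=
  (LinearIsometryEquiv.measurePreserving A).integrable_comp_emb
    A.toHomeomorph.measurableEmbedding

/-- rotation about the third axis -/
def rotL (θ : ℝ) : R3 →ₗᵢ[ℝ] R3 where
  toFun x := !₂[Real.cos θ * x 0 - Real.sin θ * x 1, Real.sin θ * x 0 + Real.cos θ * x 1, x 2]
  map_add' x y := by
    ext i
    fin_cases i
    all_goals simp
    all_goals ring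
  map_smul' c x := by
    ext i
    fin_cases i
    all_goals simp
    all_goals ring
  norm_map' x := by
    have h := Real.sin_sq_add_cos_sq θ
    rw [EuclideanSpace.norm_eq, EuclideanSpace.norm_eq]
    congr 1
    simp only [Fin.sum_univ_three, Real.norm_eq_abs, sq_abs, LinearMap.coe_mk, AddHom.coe_mk]
    simp
    linear_combination (x 0 ^ 2 + x 1 ^ 2) * h

def rot3 (θ : ℝ) : R3 ≃ₗᵢ[ℝ] R3 := (rotL θ).toLinearIsometryEquiv rfl

theorem rot3_apply (θ : ℝ) (x : R3) : rot3 θ x =
    !₂[Real.cos θ * x 0 - Real.sin θ * x 1, Real.sin θ * x 0 + Real.cos θ * x 1, x 2] := rfl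

/-- rotation by the angle `θ` about the third vector of the orthonormal basis `b` -/
def rotB (b : OrthonormalBasis (Fin 3) ℝ R3) (θ : ℝ) : R3 ≃ₗᵢ[ℝ] R3 :=
  (b.repr.trans (rot3 θ)).trans b.repr.symm

theorem repr_rotB (b : OrthonormalBasis (Fin 3) ℝ R3) (θ : ℝ) (x : R3) :
    b.repr (rotB b θ x) = rot3 θ (b.repr x) := by
  simp [rotB]

theorem repr_rotB0 (b : OrthonormalBasis (Fin 3) ℝ R3) (θ : ℝ) (x : R3) :
    b.repr (rotB b θ x) 0 = Real.cos θ * b.repr x 0 - Real.sin θ * b.repr x 1 := by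
  rw [repr_rotB, rot3_apply]; simp

theorem repr_rotB1 (b : OrthonormalBasis (Fin 3) ℝ R3) (θ : ℝ) (x : R3) :
    b.repr (rotB b θ x) 1 = Real.sin θ * b.repr x 0 + Real.cos θ * b.repr x 1 := by
  rw [repr_rotB, rot3_apply]; simp

theorem repr_rotB2 (b : OrthonormalBasis (Fin 3) ℝ R3) (θ : ℝ) (x : R3) :
    b.repr (rotB b θ x) 2 = b.repr x 2 := by
  rw [repr_rotB, rot3_apply]; simp

theorem inner_rotB (b : OrthonormalBasis (Fin 3) ℝ R3) (θ : ℝ) (x : R3) :
    inner ℝ (b 2) (rotB b θ x) = inner ℝ (b 2) x := by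
  rw [← b.repr_apply_apply, ← b.repr_apply_apply, repr_rotB2]

/-- the linear form `x ↦ ⟨u,x⟩ + i ⟨w,x⟩` -/
def om (u w x : R3) : ℂ := ⟨inner ℝ u x, inner ℝ w x⟩

theorem om_eq (u w x : R3) : om u w x = (inner ℝ u x : ℝ) + (inner ℝ w x : ℝ) * Complex.I := by
  apply Complex.ext <;> simp [om]

theorem om_add (u w x y : R3) : om u w (x + y) = om u w x + om u w y := by
  apply Complex.ext <;> simp [om, inner_add_right]

theorem om_smul (u w : R3) (c : ℝ) (x : R3) : om u w (c • x) = c * om u w x := by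
  apply Complex.ext <;> simp [om, inner_smul_right]

theorem om_expand (u w : R3) (b : OrthonormalBasis (Fin 3) ℝ R3) (x : R3) :
    om u w x = b.repr x 0 * om u w (b 0) + b.repr x 1 * om u w (b 1) + b.repr x 2 * om u w (b 2) := by
  conv_lhs => rw [← b.sum_repr x]
  rw [Fin.sum_univ_three, om_add, om_add, om_smul, om_smul, om_smul]

/-- nullness in any orthonormal basis -/
theorem om_null {u w : R3} (h1 : inner ℝ u w = 0) (h2 : ‖u‖ = ‖w‖)
    (b : OrthonormalBasis (Fin 3) ℝ R3) :
    om u w (b 0) ^ 2 + om u w (b 1) ^ 2 + om u w (b 2) ^ 2 = 0 := by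
  have hu := b.sum_inner_mul_inner u u
  have hw := b.sum_inner_mul_inner w w
  have huw := b.sum_inner_mul_inner u w
  rw [h1] at huw
  rw [real_inner_self_eq_norm_sq] at hu hw
  rw [← h2] at hw
  simp only [Fin.sum_univ_three] at hu hw huw
  rw [real_inner_comm u (b 0), real_inner_comm u (b 1), real_inner_comm u (b 2)] at hu
  rw [real_inner_comm w (b 0), real_inner_comm w (b 1), real_inner_comm w (b 2)] at hw huw
  apply Complex.ext
  · simp only [om, pow_two, Complex.add_re, Complex.mul_re, Complex.zero_re]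
    linarith
  · simp only [om, pow_two, Complex.add_im, Complex.mul_im, Complex.zero_im]
    linarith

/-- the effect of the rotation by the angle `θ` on a linear form -/
theorem om_rotB (u w : R3) (b : OrthonormalBasis (Fin 3) ℝ R3) (θ : ℝ) (x : R3) :
    om u w (rotB b θ x) = b.repr x 2 * om u w (b 2)
      + (1 / 2 : ℂ) * ((b.repr x 0 : ℂ) + b.repr x 1 * Complex.I) *
          (om u w (b 0) - Complex.I * om u w (b 1)) * Complex.exp (θ * Complex.I)
      + (1 / 2 : ℂ) * ((b.repr x 0 : ℂ) - b.repr x 1 * Complex.I) *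
          (om u w (b 0) + Complex.I * om u w (b 1)) * (Complex.exp (θ * Complex.I))⁻¹ := by
  rw [om_expand u w b, repr_rotB0, repr_rotB1, repr_rotB2, ← Complex.exp_neg, ← neg_mul,
    ← Complex.ofReal_neg, Complex.exp_mul_I, Complex.exp_mul_I]
  push_cast
  rw [Complex.cos_neg, Complex.sin_neg]
  have hI : Complex.I ^ 2 = -1 := Complex.I_sq
  linear_combination (Complex.cos θ * b.repr x 1 * om u w (b 1) +
    b.repr x 0 * Complex.sin θ * om u w (b 1) - Complex.sin θ * b.repr x 1 * om u w (b 0)) * hI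

end

end Vale.Agent.P370.H374
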